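import Vale.Agent.P354YV.Trk
import Vale.Agent.P354YI.Met
import Vale.Agent.P354YQ.Oj
import Vale.Agent.P354YJ.JDefs
import Vale.Agent.P354XM.Defs

/-!
Block S1: the double null chart on the thin ingoing slab. Definitions and exact statements of the
pieces CVT (metric to unknowns), EIK (second optical function), REF (rays of Kerr), INDX.
-/

open scoped ContDiff
open Set

noncomputable section

namespace Vale.Agent.P354SA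

open Vale.Agent.P354n (R4)
open Vale.Agent.P354H (X3)
open Vale.Agent.P354C (Ix met detP fr)
open Vale.Agent.P354C.Ix
open Vale.Agent.P354A (cmp dxl Pb)
open Vale.Agent.P354I (X P3 Dat)
open Vale.Agent.P354K (n0)
open Vale.Agent.P354GT (Fu)
open Vale.Agent.P354R (Met Vac Pull)
open Vale.Agent.P354RC (Rm)
open Vale.Agent.P354XD (tb)
open Vale.Agent.P354XE (Tw pb gin rd xs ur Lor)
open Vale.Agent.P354XB (Box Ex top)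
open Vale.Agent.P354YQ (SA JB JD)

/-! ### The slab with a cost for the angular derivatives -/

/-- Every derivative in x costs l, every angular derivative costs θ. -/
def Pz (l θ : ℝ) (n : ℕ) (f : R4 → ℝ) (p : R4) (c : ℝ) : Prop :=
  ∀ α : List (Fin 3), α.length ≤ n → |dxl α f p| ≤ c * l ^ n0 α * θ ^ (α.length - n0 α)

/-- The size of the unknown i. -/
def wz (G θ c : ℝ) : Ix → ℝ
  | .O => G
  | .b1 | .b2 => Real.log G / θ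
  | .om | .r0 => Real.log G
  | .P11 | .P12 | .P21 | .P22 => c / θ
  | _ => c

structure Slab2 (n : ℕ) (T δ R w G β : ℝ) (c π : ℝ → ℝ) (U : R4 → Ix → ℝ) : Prop where
  fu : Fu U (Box (-δ) (T + δ) (R - 3 * w) (R + 4 * w) 6)
  bd : ∀ p ∈ Box (-δ) (T + δ) (R - 3 * w) (R + 4 * w) 6, G⁻¹ ≤ U p O ∧ G⁻¹ ≤ detP (U p) ∧
    |U p b1| ≤ β ∧ |U p b2| ≤ β ∧ (∀ i ∈ [P11, P12, P21, P22], |U p i| ≤ π p.1) ∧
    ∀ i, Pb n (cmp U i) p G ∧ Pb n (P354H.dt (cmp U i)) p G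
  rate : ∃ θ ∈ Icc 1 G, ∀ p ∈ Box (-δ) (T + δ) (R - 3 * w) (R + 4 * w) 6, ∀ i,
    Pz G θ n (cmp U i) p (wz G θ (c p.1) i)
  cπ : Continuous π
  int : ∫ t in (0 : ℝ)..T + δ, π t ^ 2 ≤ β

/-! ### Classes of functions, and the parts of a metric -/

/-- Jets at z in which a derivative in the first variable gains l, in the others k. -/
def dl (l k : ℝ) (z ξ : R4) : R4 := z + (l * ξ.1, k • ξ.2)
def Cl (n : ℕ) (l k : ℝ) (f : R4 → ℝ) (z : R4) (c : ℝ) : Prop :=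
  JB n (fun ξ => f (dl l k z ξ)) 0 c

def e0 : R4 := (1, 0, 0, 0)
def e1 : R4 := (0, 1, 0, 0)
def ey : Fin 2 → R4 := ![(0, 0, 1, 0), (0, 0, 0, 1)]
def yc (a : Fin 2) (v : R4) : ℝ := ![v.2.2.1, v.2.2.2] a
def dv (v : R4) (f : R4 → ℝ) (z : R4) : ℝ := fderiv ℝ f z v
def jb (x : ℝ) : ℝ := √(1 + x ^ 2)

/-- The metric of the spheres, its determinant and its inverse. -/
def gm (g : Tw) (a b : Fin 2) (z : R4) : ℝ := g z (ey a) (ey b)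
def dg (g : Tw) (z : R4) : ℝ := gm g 0 0 z * gm g 1 1 z - gm g 0 1 z ^ 2
def gi (g : Tw) (a b : Fin 2) (z : R4) : ℝ :=
  ![![gm g 1 1 z, -gm g 0 1 z], ![-gm g 0 1 z, gm g 0 0 z]] a b / dg g z

/-- The Lie derivative of the metric of the spheres along V, and the curvature on a frame. -/
def lie (g : Tw) (V : R4 → R4) (a b : Fin 2) (z : R4) : ℝ :=
  fderiv ℝ (gm g a b) z (V z) + ∑ c, (gm g c b z * dv (ey a) (fun x => yc c (V x)) z +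
    gm g a c z * dv (ey b) (fun x => yc c (V x)) z)
def fv (V : R4 → R4) (n : R4) (r : ℝ) (z : R4) : Fin 4 → R4 := ![V z, n, r⁻¹ • ey 0, r⁻¹ • ey 1]
def rie (g : Tw) (F : R4 → Fin 4 → R4) (i j k l : Fin 4) (z : R4) : ℝ :=
  Rm (tb g) z (F z i) (F z j) (F z k) (F z l)

/-! ### CVT: from a double null metric to the unknowns -/

def nv : R4 := (1, -1, 0, 0)
def bb (h : Tw) (a : Fin 2) (p : R4) : ℝ := -∑ b, gi h a b p * h p (1, 1, 0, 0) (ey b)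
def lv (h : Tw) (p : R4) : R4 := (1, 1, bb h 0 p, bb h 1 p)
def O2 (h : Tw) (p : R4) : ℝ := -h p nv (1, 1, 0, 0) / 2

/-- The bounds at p; r is the radius, m the rate, and every derivative costs θ. -/
structure DNp (n : ℕ) (C β r m θ π : ℝ) (h : Tw) (p : R4) : Prop where
  null : h p nv nv = 0 ∧ (∀ a, h p nv (ey a) = 0) ∧ h p (lv h p) (lv h p) = 0
  pos : C⁻¹ ≤ O2 h p ∧ C⁻¹ * r ^ 4 ≤ dg h p ∧ 0 < gm h 0 0 p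
  one : Cl n θ⁻¹ θ⁻¹ (O2 h) p C ∧ (∀ a, Cl n θ⁻¹ θ⁻¹ (bb h a) p C) ∧
    ∀ a b, Cl n θ⁻¹ θ⁻¹ (gm h a b) p (C * r ^ 2)
  dO : Cl n θ⁻¹ θ⁻¹ (dv nv (O2 h)) p (C * θ * m)
  db : ∀ a, Cl n θ⁻¹ θ⁻¹ (dv nv (bb h a)) p (C * θ * m / r)
  dg : ∀ a b, Cl n θ⁻¹ θ⁻¹ (dv nv (gm h a b)) p (C * r ^ 2 * m)
  chi : ∀ a b, Cl n θ⁻¹ θ⁻¹ (lie h (lv h) a b) p (C * r ^ 2 * θ * m)
  cur : ∀ i j k l, Cl n θ⁻¹ θ⁻¹ (rie h (fv (lv h) nv r) i j k l) p (C * θ * m)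
  sharp : (∀ a, |bb h a p| ≤ β) ∧ ∀ a, O2 h p * gi h a a p ≤ π ^ 2

structure DN (n : ℕ) (C β T δ R w θ ℓ : ℝ) (rb mt ϑ π : ℝ → ℝ) (h : Tw) : Prop where
  par : 1 ≤ C ∧ 1 ≤ T ∧ 0 < δ ∧ δ ≤ 1 ∧ 0 < w ∧ 1 ≤ ℓ
  met : Met h (Box (-δ) (T + δ) (R - 3 * w) (R + 4 * w) 6)
  vac : Vac h (Box (-δ) (T + δ) (R - 3 * w) (R + 4 * w) 6)
  pt : ∀ p ∈ Box (-δ) (T + δ) (R - 3 * w) (R + 4 * w) 6,
    DNp n C β (rb p.1) (mt p.1) (ϑ p.1) (π p.1) h p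
  wt : ∀ t ∈ Icc (-δ) (T + δ), 1 ≤ rb t ∧ rb t ≤ C * T ∧ (rb t)⁻¹ ≤ mt t ∧ mt t ≤ C ∧ 1 ≤ ϑ t ∧
    ϑ t ≤ θ ∧ (T - 1 ≤ t → rb t ≤ C ∧ ϑ t = 1)
  anti : Antitone ϑ
  cm : Continuous mt ∧ (∀ t, 0 ≤ mt t) ∧ ∫ t in (-δ)..T + δ, mt t ≤ ℓ
  cπ : Continuous π ∧ (∀ t, 0 ≤ π t) ∧ ∫ t in (0 : ℝ)..T + δ, π t ^ 2 ≤ β

/-- CVT. P = O Rot(α) γ^(-1/2), where the angle α is zero on τ = T and is integrated along n. -/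
def CVT : Prop :=
  ∀ (n : ℕ) (C : ℝ), ∃ (C' : ℝ) (N : ℕ), 1 ≤ C' ∧ ∀ β T δ R w θ ℓ rb mt ϑ π h,
    DN (n + 8) C β T δ R w θ ℓ rb mt ϑ π h → ∃ U : R4 → Ix → ℝ,
      (∀ p ∈ Box (-δ) (T + δ) (R - 3 * w) (R + 4 * w) 6, met U p = h p) ∧
      (∀ G, (C' * θ * ℓ * T) ^ N ≤ G → C' * θ * ℓ ^ N ≤ Real.log G →
        Slab2 n T δ R w G β (fun t => C' * θ * ℓ ^ N * mt t) π U) ∧
      ∀ z ∈ P354XB.Win R w 6, C'⁻¹ ≤ detP (top U T z) ∧ top U T z P12 = top U T z P21 ∧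
        0 < top U T z P11 ∧ P354YJ.RT (top U T) z = top U T z ∧
        ∀ i, P354YJ.Ab 5 (cmp (top U T) i) z C'

/-- INDX: the data on a slice of the slab. -/
def INDX : Prop :=
  ∀ (Ψ : R4 → R4) (U : R4 → Ix → ℝ) (B D : Set R4) (g : Tw) (Xf : R4 → R4) (J : X → R4) (d : Dat)
    (j : X3 → X) (W : Set X3) (t t' : ℝ), Lor g D Xf → Pull Ψ (met U) B g D → Fu U B →
    (∀ p ∈ B, g (Ψ p) (fderiv ℝ Ψ p nv) (Xf (Ψ p)) < 0) → ContDiffOn ℝ ∞ J {0}ᶜ →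
    P354XE.Ind g Xf J d → IsOpen W → ContDiffOn ℝ ∞ j W →
    (∀ z ∈ W, j z ≠ 0 ∧ (t, z.1 - t', z.2) ∈ B ∧ Ψ (t, z.1 - t', z.2) = J (j z)) →
    ∀ z ∈ W, P354J.Ind (U (t, z.1 - t', z.2)) (P354PU.pg j d.h z) (P354PU.pg j d.K z)

/-! ### EIK: the second optical function. Coordinates z = (s, v, y); the lines along s are the
ingoing rays, s increases to the past, the top slice is s = v, the initial slice is s = S (v, y).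
The metric is 2 Om dv (ds - a0 dv) + γ (dy + a1 dv)^2. -/

def Om (g : Tw) (z : R4) : ℝ := g z e0 e1
def a1 (g : Tw) (a : Fin 2) (z : R4) : ℝ := ∑ b, gi g a b z * g z e1 (ey b)
def a0 (g : Tw) (z : R4) : ℝ := (∑ a, a1 g a z * g z e1 (ey a) - g z e1 e1) / (2 * Om g z)
def a2 (g : Tw) (a b : Fin 2) (z : R4) : ℝ := Om g z * gi g a b z / 2
def lh (g : Tw) (z : R4) : R4 := (a0 g z, 1, -a1 g 0 z, -a1 g 1 z)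

/-- The bounds at z; derivatives in s gain l. -/
structure Rp (n : ℕ) (C0 C r m l rc : ℝ) (g : Tw) (z : R4) : Prop where
  null : g z e0 e0 = 0 ∧ ∀ a, g z e0 (ey a) = 0
  pos : C⁻¹ ≤ Om g z ∧ C⁻¹ * r ^ 4 ≤ dg g z ∧ 0 < gm g 0 0 z
  one : Cl n l 1 (Om g) z C ∧ Cl n l 1 (a0 g) z C ∧ (∀ a, Cl n l 1 (a1 g a) z C) ∧
    ∀ a b, Cl n l 1 (gm g a b) z (C * r ^ 2)
  dO : Cl n l 1 (dv e0 (Om g)) z (C * m)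
  d0 : Cl n l 1 (dv e0 (a0 g)) z (C * m)
  d1 : ∀ a, Cl n l 1 (dv e0 (a1 g a)) z (C * m / r)
  dg : ∀ a b, Cl n l 1 (dv e0 (gm g a b)) z (C * r ^ 2 * m)
  chi : ∀ a b, Cl n l 1 (lie g (lh g) a b) z (C * r ^ 2 * m)
  cur : ∀ i j k o, Cl n l 1 (rie g (fv (lh g) e0 r) i j k o) z (C * m)
  sharp : JB 3 (a0 g) z C0 ∧ (∀ a, JB 3 (a1 g a) z C0) ∧
    ∀ a b, JB 3 (a2 g a b) z C0 ∧ |a2 g a b z| ≤ C0 / rc ^ 2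

/-- The window, and the domain of the rays. -/
def Wn (w : ℝ) : Set X3 := {x | x.1 ∈ Ioo (-5 * w) (6 * w) ∧ ‖x.2‖ < 15 / 2}
def RD (w δ : ℝ) (S : X3 → ℝ) : Set R4 := {z | z.2 ∈ Wn w ∧ z.2.1 - δ < z.1 ∧ z.1 < S z.2 + δ}

/-- The transversality of the initial slice to the outgoing null direction. -/
def trv (S : X3 → ℝ) (g : Tw) (z : R4) : ℝ := fderiv ℝ S z.2 (lh g z).2 - a0 g z

/-- The rate: sw is the place of the wave zone. -/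
def mm (sw σ x : ℝ) : ℝ := (jb x)⁻¹ + jb (x - sw) ^ (-σ)

structure Ray (n : ℕ) (C0 C ε T L w δ sc sw σ : ℝ) (S : X3 → ℝ) (g : Tw) : Prop where
  par : 1 ≤ C0 ∧ 1 ≤ C ∧ 0 < δ ∧ δ ≤ 1 ∧ sc ∈ Icc 0 C ∧ sw ∈ Icc 0 (3 / 2 * T) ∧ σ ∈ Ioc 1 2
  met : Met g (RD w δ S)
  vac : Vac g (RD w δ S)
  pt : ∀ z ∈ RD w δ S, Rp n C0 C (jb (z.1 - z.2.1)) (mm sw σ (z.1 - z.2.1))
    (if 5 / 3 * T ≤ z.1 - z.2.1 then L else 1) (jb (z.1 - z.2.1 - sc)) g z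
  top : ∀ z ∈ RD w δ S, z.1 - z.2.1 ≤ δ → |a0 g z| ≤ 1 / 10
  bot : ∀ x ∈ Wn w, |S x - 2 * T| ≤ ε * T ∧ (∀ a, |fderiv ℝ S x (ey a).2| ≤ ε * T) ∧
    JD (n + 1) (fun ξ => S (x + (L / T) • ξ)) 0 (C * L) ∧
    JB n (fun ξ => trv S g (S (x + (L / T) • ξ), x + (L / T) • ξ)) 0 C
  tr : ∀ z ∈ RD w δ S, S z.2 - δ ≤ z.1 → trv S g z ∈ Icc C⁻¹ C

/-- The map from the slab to the rays. -/
def sm (R : ℝ) (Λ : R4 → ℝ) (p : R4) : R4 := (Λ p, p.1 + p.2.1 - R, p.2.2)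

/-- EIK. -/
def EIK : Prop :=
  ∀ C0 : ℝ, ∃ β w1 : ℝ, 0 < w1 ∧ ∀ w ∈ Ioc 0 w1, ∀ (n : ℕ) (C : ℝ), ∃ C' ε T0 : ℝ, 0 < ε ∧
    ∀ T L δ sc sw σ S g R, T0 ≤ L → L ^ 2 ≤ T → Ray (n + 4) C0 C ε T L w δ sc sw σ S g →
      ∃ δ' ∈ Ioc 0 δ, ∃ (Λ : R4 → ℝ) (rb mt ϑ π : ℝ → ℝ),
        Pull (sm R Λ) (pb (sm R Λ) g) (Box (-δ') (T + δ') (R - 3 * w) (R + 4 * w) 6) g
          (RD w δ S) ∧
        InjOn (sm R Λ) (Box (-δ') (T + δ') (R - 3 * w) (R + 4 * w) 6) ∧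
        (∀ p ∈ Box (-δ') (T + δ') (R - 3 * w) (R + 4 * w) 6, dv nv Λ p ≤ -(C' * T)⁻¹ ∧
          JD (n + 1) Λ p ((C' * T) ^ (n + 1)) ∧
          (p.1 = T → Λ p = p.1 + p.2.1 - R) ∧ (p.1 = 0 → Λ p = S (p.2.1 - R, p.2.2))) ∧
        DN n C' β T δ' R w (T / L) (C' * Real.log T) rb mt ϑ π (pb (sm R Λ) g)

/-! ### The far chart (s, r, η): u = c - s, and d/dr is the field Lo -/

def Fq (M a r : ℝ) : ℝ := r + (Real.log (r - P354I.rp M a) -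
  P354I.rm M a / P354I.rp M a * Real.log (r - P354I.rm M a)) / P354XE.ka M a
def ps (M a r : ℝ) : ℝ := 2 * a / (P354I.rp M a - P354I.rm M a) *
  (Real.log (r - P354I.rp M a) - Real.log (r - P354I.rm M a))
def Th (M a : ℝ) (σ : Bool) (c : ℝ) (z : R4) : R4 :=
  P354XE.pt (c - z.1 + Fq M a z.2.1) (z.2.1 • P354YJ.rz (ps M a z.2.1) (P354E.st σ z.2.2).1)
def et (M a : ℝ) (σ : Bool) (p : R4) : ℝ × ℝ :=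
  (P354J.Psi σ (P354YJ.rz (-ps M a (rd p)) (xs p))).2

/-! ### REF: the ingoing rays of Kerr. Coordinates z = (ς, v, y); the parameter is
(p, exp (- k t)), where t is the time of the top slice. -/

/-- The top slice for the end b, and the shear (s, v, y) ↦ (s - v, v, y). -/
def tp (k : ℝ) (H : ℕ → P354RG.Y3 → ℝ) (b σ : Bool) (p : P3) (t : ℝ) (x : X3) : R4 :=
  P354YJ.Js k H b p t (bif b then P354J.Phi σ x else P354YJ.iv (P354J.Phi σ x))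
def shr (z : R4) : R4 := (z.1 - z.2.1, z.2)

structure Ref (p0 : P3) (k ε1 C0 s1 r1 : ℝ) (H : ℕ → P354RG.Y3 → ℝ) (b σ : Bool)
    (Ψ : P3 × ℝ → R4 → R4) (S : P354RG.Y3 → ℝ) (x : P3 × ℝ) : Prop where
  smooth : ∀ z : R4, ‖z.2.2‖ ≤ 9 → ContDiffAt ℝ ∞ (fun y : (P3 × ℝ) × R4 => Ψ y.1 y.2) (x, z)
  imm : ∀ z : R4, ‖z.2.2‖ ≤ 9 → Function.Injective (fderiv ℝ (Ψ x) z) ∧
    P354I.rm x.1.1 x.1.2.1 < rd (Ψ x z) ∧ (fderiv ℝ (Ψ x) z e0).1 < 0 ∧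
    0 < fderiv ℝ (fun y => rd (Ψ x y)) z e0
  inj : InjOn (Ψ x) {z | ‖z.2.2‖ ≤ 9}
  top : ∀ t, x.2 = Real.exp (-k * t) → ∀ y : X3,
    Ψ x (-2 * t, y.1 + t, y.2) = tp k H b σ x.1 t y
  sym : ∃ c om : ℝ, c ∈ Icc (1 / 2) 2 ∧ |om| ≤ C0 ∧ ∀ (z : R4) t,
    Ψ x (z.1, z.2.1 + t, z.2.2) = P354XM.sh (c * t) (om * t) (Ψ x z)
  ray : ∀ z : R4, ‖z.2.2‖ ≤ 9 → let g := pb (Ψ x ∘ shr) (gin x.1.1 x.1.2.1)
    g z e0 e0 = 0 ∧ (∀ a, g z e0 (ey a) = 0) ∧ 0 < Om g z ∧ 0 < dg g z ∧ 0 < gm g 0 0 z ∧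
    (z.1 - z.2.1 ≤ 0 → a0 g z = 0 ∧ (∀ a, JB 4 (a1 g a) z C0) ∧
      ∀ a b, JB 4 (a2 g a b) z C0 ∧ |a2 g a b z| ≤ C0 / jb (z.1 - z.2.1) ^ 2)
  rad : ∀ z : R4, ‖z.2.2‖ ≤ 9 → s1 ≤ z.1 → rd (Ψ x z) = r1 + (z.1 - s1) / 2
  eik : ∃ c c' : ℝ, c ∈ Icc (1 / 2) 2 ∧ ∀ z : R4, ‖z.2.2‖ ≤ 9 → s1 ≤ z.1 →
    (Ψ x z).1 + rd (Ψ x z) + S (x.1, rd (Ψ x z), P354RG.zh (xs (Ψ x z))) = c * z.2.1 + c'
  sS : ∀ r ≥ r1, ∀ ζ ∈ Icc (-1 : ℝ) 1, ContDiffAt ℝ ∞ S (x.1, r, ζ) ∧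
    JD 2 (fun y : ℝ × ℝ => S (x.1, y)) (r, ζ) C0 ∧ |P354RG.gs S (x.1, r, ζ)| ≤ 1 / 2
  ang : ∀ z : R4, ‖z.2.2‖ ≤ 9 → s1 ≤ z.1 → let η := fun y => et x.1.1 x.1.2.1 σ (Ψ x y)
    ‖η z‖ ≤ C0 ∧ ‖fderiv ℝ η z e0‖ ≤ C0 / rd (Ψ x z) ^ 2 ∧
    ∀ y : ℝ × ℝ, ‖y‖ ≤ 9 → ‖z.2.2 - y‖ ≤ C0 * ‖η z - η (z.1, z.2.1, y)‖ ∧
      ‖η z - η (z.1, z.2.1, y)‖ ≤ C0 * ‖z.2.2 - y‖
  pole : ∀ z : R4, ‖z.2.2‖ ≤ 3 / 5 → C0⁻¹ ≤ P354E.sg σ * P354RG.zh (xs (Ψ x z))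

/-- REF. -/
def REF : Prop :=
  ∀ (M a r0 k ε0 δ : ℝ) G H, P354RG.IsG (M, a, r0) k ε0 δ G → P354YJ.IsH (M, a, r0) k ε0 δ G H →
    k = P354R.kap M a → r0 = M → ∀ b σ, ∃ ε1 ∈ Ioo 0 ε0, ∃ C0 s1 r1 Ψ S, 1 ≤ C0 ∧ 0 ≤ s1 ∧
      3 * M + 1 ≤ r1 ∧ ∀ p ∈ Metric.closedBall ((M, a, r0) : P3) ε1, ∀ s ∈ Icc (0 : ℝ) 1,
        Ref (M, a, r0) k ε1 C0 s1 r1 H b σ Ψ S (p, s)

end Vale.Agent.P354SA
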