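import Vale.Agent.P354SA.Nf
import Vale.Agent.P354YQ.Ext

/-!
A priori bounds along the far rays, and existence up to the initial slice.
-/

open scoped ContDiff Nat
open Set Filter Topology MeasureTheory

noncomputable section

namespace Vale.Agent.P354SA

open Vale.Agent.P354n (R4)
open Vale.Agent.P354H (X3)
open Vale.Agent.P354R (Met)
open Vale.Agent.P354XE (Tw)
open Vale.Agent.P354YQ (SA JB JD Sol slice_max crv_of_sol)

theorem bootI {f : ℝ → ℝ} {a b : ℝ} (c : ContinuousOn f (Icc a b)) (h0 : f a ≤ 0)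
    (h : ∀ s ∈ Icc a b, (∀ t ∈ Icc a s, f t ≤ 0) → f s < 0) : ∀ s ∈ Icc a b, f s ≤ 0 := by
  intro s m
  refine IsClosed.Icc_subset_of_forall_mem_nhdsGT_of_Icc_subset (s := {t | t ∈ Icc a b → f t ≤ 0})
    ?_ (fun _ => h0) (fun t j i => ?_) m m
  · have := c.preimage_isClosed_of_isClosed isClosed_Icc (isClosed_Iic (a := (0 : ℝ)))
    rwa [show {t | t ∈ Icc a b → f t ≤ 0} ∩ Icc a b = Icc a b ∩ f ⁻¹' Iic 0 from
      Set.ext fun t => ⟨fun k => ⟨k.2, k.1 k.2⟩, fun k => ⟨fun _ => k.2, k.1⟩⟩]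
  · have k := h t (Ico_subset_Icc_self j) fun u v => i v ⟨v.1, v.2.trans j.2.le⟩
    have := (c t (Ico_subset_Icc_self j)).eventually_lt_const k
    rw [eventually_nhdsWithin_iff] at this
    exact mem_nhdsWithin_of_mem_nhds (this.mono fun u v w => (v w).le)

theorem int_le {E : Type} [NormedAddCommGroup E] [NormedSpace ℝ E] {f f' : ℝ → E} {B : ℝ → ℝ}
    {a b : ℝ} (hab : a ≤ b) (h : ∀ t ∈ Icc a b, HasDerivAt f (f' t) t ∧ ‖f' t‖ ≤ B t)
    (c : ContinuousOn B (Icc a b)) : ‖f b - f a‖ ≤ ∫ t in a..b, B t :=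
  norm_sub_le_integral_of_norm_deriv_le_of_le hab
    (fun t m => (h t m).1.continuousAt.continuousWithinAt)
    (fun t m => (h t (Ioo_subset_Icc_self m)).1.differentiableAt.differentiableWithinAt)
    (.of_forall fun t m => (h t (Ioo_subset_Icc_self m)).1.deriv ▸ (h t (Ioo_subset_Icc_self m)).2)
    (c.intervalIntegrable_of_Icc hab)

theorem d_fst {E F : Type} [NormedAddCommGroup E] [NormedSpace ℝ E] [NormedAddCommGroup F]
    [NormedSpace ℝ F] {f : ℝ → E × F} {v : E × F} {t : ℝ} (h : HasDerivAt f v t) :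
    HasDerivAt (fun t => (f t).1) v.1 t ∧ HasDerivAt (fun t => (f t).2) v.2 t :=
  ⟨(ContinuousLinearMap.fst ℝ E F).hasFDerivAt.comp_hasDerivAt t h,
    (ContinuousLinearMap.snd ℝ E F).hasFDerivAt.comp_hasDerivAt t h⟩

theorem sol_d {E : Type} [NormedAddCommGroup E] [NormedSpace ℝ E] {v : R4 × E → E} {Y : R4 → E}
    {s : ℝ} {x : X3} (h : Sol e0 v Y (s, x)) :
    HasDerivAt (fun t => Y (t, x)) (v ((s, x), Y (s, x))) s := by
  rw [← h.ode.self_of_nhds]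
  exact h.sm.diff.hasFDerivAt.comp_hasDerivAt s ((hasDerivAt_id s).prodMk (hasDerivAt_const s x))

/-- The maximal family which starts at the time a. -/
theorem max_s {E : Type} [NormedAddCommGroup E] [NormedSpace ℝ E] [FiniteDimensional ℝ E]
    {v : R4 × E → E} {U : Set (R4 × E)} (hU : IsOpen U) (hv : ContDiffOn ℝ ∞ v U) (a : ℝ)
    (x0 : X3 → E) : ∃ (W : Set R4) (Φ : R4 → E), IsOpen W ∧
      (∀ z ∈ W, Sol e0 v Φ z ∧ (z, Φ z) ∈ U ∧ (z.1 = a → Φ z = x0 z.2) ∧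
        ∀ s ∈ uIcc a z.1, (s, z.2) ∈ W) ∧
      (∀ s x (Ψ : R4 → E), SA x0 x → Ψ (a, x) = x0 x →
        (∀ t ∈ uIcc a s, Sol e0 v Ψ (t, x) ∧ ((t, x), Ψ (t, x)) ∈ U) →
        (s, x) ∈ W ∧ Φ (s, x) = Ψ (s, x)) ∧
      ∀ s x, a ≤ s → SA x0 x → ∀ K ⊆ U, IsCompact K → ((a, x), x0 x) ∈ K →
        (∀ t ∈ Ioo a s, (t, x) ∈ W → ((t, x), Φ (t, x)) ∈ K) → (s, x) ∈ W := by
  let τ : R4 → ℝ := fun z => z.1 - a
  have pe : ∀ s (z : R4), P354YQ.pt e0 τ s z = (z.1 - s * (z.1 - a), z.2) := fun s z => by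
    simp [P354YQ.pt, τ, e0, Prod.ext_iff]
  have p1 : ∀ z : R4, P354YQ.pt e0 τ 1 z = (a, z.2) := fun z => by simp [pe]
  have oO : IsOpen {z : R4 | SA x0 z.2} := isOpen_iff_mem_nhds.2 fun z m =>
    continuous_snd.continuousAt.eventually (SA.ev m)
  obtain ⟨W, Φ, o, -, h1, h2, -, h4⟩ := P354YQ.ode_max (e := e0) (τ := τ) (x0 := fun z => x0 z.2)
    hU hv oO (fun z _ => SA.of (by fun_prop)) (fun z t => by simp [τ, e0]; ring)
    (fun z m => by
      rw [p1]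
      exact SA.comp (f := Prod.snd) (z := (a, z.2)) m (SA.of contDiff_snd))
    fun z m s _ => by rwa [pe]
  refine ⟨W, Φ, o, fun z m => ⟨(h1 z m).1, (h1 z m).2.1, fun k => (h1 z m).2.2.1 (sub_eq_zero.2 k),
    fun s k => ?_⟩, fun s x Ψ m k h => ?_, fun s x l m K k c i h => ?_⟩
  · obtain ⟨u, u1, u2⟩ := (P354YQ.mem_uIcc_iff (T := z.1 - a) (t := s - a)).1 (by
      rw [mem_uIcc] at k ⊢
      rcases k with k | k
      exacts [.inl ⟨by linarith, by linarith⟩, .inr ⟨by linarith, by linarith⟩])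
    have := (h1 z m).2.2.2 _ (P354YQ.flip_mem u1)
    rwa [pe, show z.1 - (1 - u) * (z.1 - a) = s by linarith] at this
  · have e : ∀ t : ℝ, ((a, x) : R4) + t • e0 = (a + t, x) := fun t => by simp [e0, Prod.ext_iff]
    have := h2 (s, x) m (fun t => Ψ ((a, x) + t • e0)) (by
      rw [p1, ← k]
      refine crv_of_sol fun t j => ?_
      rw [e]
      refine h _ ?_
      rw [mem_uIcc] at j ⊢
      rcases j with j | j
      exacts [.inl ⟨by linarith [j.1], by linarith [show t ≤ s - a from j.2]⟩,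
        .inr ⟨by linarith [show s - a ≤ t from j.1], by linarith [j.2]⟩])
    rwa [e, show a + τ (s, x) = s by simp [τ]] at this
  · rcases l.eq_or_lt with rfl | l
    · exact h4 (a, x) m K k c (by rwa [p1]) fun u _ j => by
        rw [pe] at j ⊢
        simp only [sub_self, mul_zero, sub_zero] at j ⊢
        rwa [(h1 _ j).2.2.1 (sub_self _)]
    · refine h4 (s, x) m K k c (by rwa [p1]) fun u j => ?_
      rw [pe]
      exact h _ ⟨by nlinarith [j.2], by nlinarith [j.1]⟩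

/-- The standing assumptions. -/
structure Cx (σ δ T L s2 r2 C1 b B e η ε l : ℝ) (vp m nn f : ℝ → ℝ) (g : Tw) (D : Set R4) :
    Prop where
  W : Wf σ δ T s2 r2 C1 b 1 e η ε vp m nn
  F : FS 9 (C1 + 2) b B e σ δ T L r2 l f g D
  par : 1 ≤ C1 ∧ 1 ≤ b ∧ 1 ≤ B ∧ 0 < e ∧ 0 ≤ s2
  sm : B * η ≤ (1200 * C1 ^ 2)⁻¹
  big : 2 * (100 * B) ^ 2 ≤ r2 ∧ 20 * (r2 + C1 + s2 + 1) ≤ T

/-- The weak bounds. -/
def Wb (r2 s2 : ℝ) (vp : ℝ → ℝ) (η0 : Y2) (s : ℝ) (y : E5) : Prop :=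
  |y.1 - rb r2 s2 s| ≤ rb r2 s2 s / 2 ∧ ‖y.2.1 - η0‖ ≤ 1 ∧ ‖y.2.2‖ ≤ 2 * vp s

variable {σ δ T L s2 r2 C1 b B e η ε l : ℝ} {vp m nn f : ℝ → ℝ} {g : Tw} {D : Set R4} {s : ℝ}
  {x : X3} {y : E5} {η0 : Y2}

namespace Cx
variable (c : Cx σ δ T L s2 r2 C1 b B e η ε l vp m nn f g D)
include c

theorem sm1 : 0 ≤ η ∧ B * η ≤ 1 / 1200 ∧ B * e ≤ B * η ∧ e ≤ 1 / 1200 ∧ 2 ≤ r2 ∧ s2 + 1 ≤ T ∧
    8 * C1 ≤ r2 := by
  obtain ⟨a1, a2, a3, a4, a5⟩ := c.par
  have k := c.W.sm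
  have h : B * η ≤ 1 / 1200 := c.sm.trans (by
    rw [one_div]
    exact inv_anti₀ (by norm_num) (by nlinarith))
  have r : 2 ≤ r2 := by nlinarith [c.big.1]
  have t : s2 + 1 ≤ T := by linarith [c.big.2]
  have w := c.W.pt s2 ⟨le_rfl, by linarith⟩
  have : rb r2 s2 s2 = r2 := by simp [rb]
  exact ⟨by linarith, h, by nlinarith, by nlinarith, r, t, by nlinarith [w.1, w.2.1]⟩

theorem f_le {r : ℝ} (h : r2 / 2 ≤ r) : |f r - r| ≤ r / 50 := by
  obtain ⟨a1, a2, a3, a4, a5, -⟩ := c.sm1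
  have B0 := c.par.2.2.1
  have k : 100 * B ≤ √r := Real.le_sqrt_of_sq_le (by linarith [c.big.1])
  have := Real.mul_self_sqrt (show 0 ≤ r by linarith)
  refine (c.F.hf r h).2.2.trans ?_
  nlinarith

theorem int_m (h : s ∈ Icc s2 (3 * T)) : ∫ t in s2..s, m t ≤ η ∧ ∫ t in s2..s, nn t ≤ η * vp s := by
  have u : Icc s2 s ⊆ Icc s2 (3 * T) := Icc_subset_Icc_right h.2
  have i := (c.W.cont.2.1.mono u).intervalIntegrable_of_Icc (μ := volume) h.1
  have k : ∫ t in s2..s, m t ≤ η := (intervalIntegral.integral_mono_interval le_rfl h.1 h.2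
    ((ae_restrict_mem measurableSet_Ioc).mono fun t j => (c.W.pt t (Ioc_subset_Icc_self j)).2.2.2.1)
    (c.W.cont.2.1.intervalIntegrable_of_Icc (h.1.trans h.2))).trans c.W.int
  have v : 0 ≤ vp s := by linarith [(c.W.pt s h).1, c.par.1]
  refine ⟨k, le_trans (intervalIntegral.integral_mono_on h.1
    ((c.W.cont.2.2.mono u).intervalIntegrable_of_Icc h.1) (i.mul_const (vp s)) fun t j => ?_) ?_⟩
  · have w := c.W.pt t (u j)
    exact w.2.2.2.2.2.1.trans (mul_le_mul_of_nonneg_left (c.W.mono (u j) h j.2) w.2.2.2.1)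
  · rw [intervalIntegral.integral_mul_const]
    exact mul_le_mul_of_nonneg_right k v

theorem geo (h : s ∈ Icc s2 (3 * T)) (w : Wb r2 s2 vp η0 s y) :
    0 < vp s ∧ 2 * vp s ≤ y.1 ∧ r2 / 2 ≤ y.1 ∧ ‖y.2.2‖ ≤ y.1 / b ∧
      y.1 ∈ Icc (rb r2 s2 s / 2) (2 * rb r2 s2 s) := by
  obtain ⟨k1, k2, -⟩ := c.W.pt s h
  obtain ⟨a1, a2, -⟩ := c.par
  have r : r2 ≤ rb r2 s2 s := by unfold rb; linarith [h.1]
  have := abs_le.1 w.1
  refine ⟨by linarith, by nlinarith, by linarith, ?_, by linarith, by linarith [c.sm1]⟩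
  rw [le_div_iff₀ (by linarith)]
  nlinarith [w.2.2]

/-- The far structure at points with the weak bounds. -/
theorem at' {N : ℕ} {B' : ℝ} (F : FS N (C1 + 2) b B' e σ δ T L r2 l f g D) (hB : 0 ≤ B')
    (h : s ∈ Icc s2 (3 * T)) (w : Wb r2 s2 vp η0 s y) (h0 : ‖η0‖ ≤ C1)
    (p : 0 ≤ fi l T f (s, y.1, y.2.1)) : ph (s, x) y ∈ Ug g D ∧
      |Hm g (ph (s, x) y) - 1 / 2| ≤ B' * e + B' * nn s ∧
      JD N (Hs g y.1 (vp s) (ph (s, x) y)) 0 (B' * nn s) := by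
  obtain ⟨g1, g2, g3, g4, g5⟩ := c.geo h w
  obtain ⟨k1, k2, -⟩ := F.pt (ph (s, x) y) g3 (by
    have := norm_add_le (y.2.1 - η0) η0
    rw [sub_add_cancel] at this
    exact this.trans (by linarith [w.2.1])) p g4
  obtain ⟨k3, k4⟩ := k2 (vp s) ⟨g1.le, show vp s ≤ y.1 by linarith⟩ w.2.2
  have n : nu B' e σ δ T (vp s) (ph (s, x) y).1 ≤ B' * nn s := by
    refine le_trans (le_of_eq ?_) (mul_le_mul_of_nonneg_left
      ((c.W.pt s h).2.2.2.2.2.2.1 (ph (s, x) y).1 rfl g5) hB)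
    rw [nu, nu, one_mul]
  exact ⟨k1, by linarith, k4.mono n⟩

theorem vel (h : s ∈ Icc s2 (3 * T)) (w : Wb r2 s2 vp η0 s y) (h0 : ‖η0‖ ≤ C1)
    (p : 0 ≤ fi l T f (s, y.1, y.2.1)) :
    |(cf g ((s, x), y)).1 - 1 / 2| ≤ B * e + 3 * B * nn s ∧
      ‖(cf g ((s, x), y)).2.1‖ ≤ B * nn s / vp s ∧ ‖(cf g ((s, x), y)).2.2‖ ≤ 3 * B * nn s ∧
      |Hd g e1 (ph (s, x) y)| ≤ B * m s ∧ B * nn s / vp s ≤ B * m s := by
  have B0 : 0 ≤ B := by linarith [c.par.2.2.1]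
  obtain ⟨g1, g2, -⟩ := c.geo h w
  obtain ⟨k1, k2, k3⟩ := c.at' (x := x) c.F B0 h w h0 p
  obtain ⟨a1, a2, a3, a4⟩ := cf_le c.F.met.1 c.F.met.2.1 g1 (show vp s ≤ y.1 by linarith) k1 w.2.2
    (k3.ord (by norm_num))
  obtain ⟨-, -, -, -, n0, n1, -⟩ := c.W.pt s h
  have k : B * nn s / vp s ≤ B * m s := by
    rw [div_le_iff₀ g1, mul_assoc]
    exact mul_le_mul_of_nonneg_left n1 B0
  refine ⟨(abs_sub_le _ _ _).trans (by linarith), a2, by linarith, a4.trans (le_trans ?_ k), k⟩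
  exact div_le_div_of_nonneg_left (mul_nonneg B0 n0) g1 (by linarith)

/-- The a priori bounds. -/
theorem apr {γ : ℝ → E5} {s1 : ℝ} (h1 : s1 ≤ 3 * T) (i1 : |(γ s2).1 - r2| ≤ C1)
    (i2 : ‖(γ s2).2‖ ≤ C1) (h : ∀ s ∈ Icc s2 s1, HasDerivAt γ (cf g ((s, x), γ s)) s ∧
      0 ≤ fi l T f (s, (γ s).1, (γ s).2.1)) : ∀ s ∈ Icc s2 s1,
    Wb r2 s2 vp (γ s2).2.1 s (γ s) ∧
      |(γ s).1 - rb r2 s2 s| ≤ C1 + B * e * (s - s2) + 3 * B * ∫ t in s2..s, nn t ∧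
      ‖(γ s).2.1 - (γ s2).2.1‖ ≤ B * η ∧ ‖(γ s).2.2‖ ≤ vp s := by
  obtain ⟨a1, a2, a3, a4, a5, a6, a7⟩ := c.sm1
  have B0 : 0 ≤ B := by linarith [c.par.2.2.1]
  have C0 := c.par.1
  have u : Icc s2 s1 ⊆ Icc s2 (3 * T) := Icc_subset_Icc_right h1
  have η0 := (norm_fst_le _).trans i2
  have st : ∀ s ∈ Icc s2 s1, (∀ t ∈ Icc s2 s, Wb r2 s2 vp (γ s2).2.1 t (γ t)) →
      |(γ s).1 - rb r2 s2 s| ≤ C1 + B * e * (s - s2) + 3 * B * ∫ t in s2..s, nn t ∧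
      ‖(γ s).2.1 - (γ s2).2.1‖ ≤ B * η ∧ ‖(γ s).2.2‖ ≤ vp s := fun s j w => by
    have v : Icc s2 s ⊆ Icc s2 s1 := Icc_subset_Icc_right j.2
    have cn := c.W.cont.2.2.mono (v.trans u)
    have k := fun t (i : t ∈ Icc s2 s) => c.vel (x := x) (u (v i)) (w t i) η0 (h t (v i)).2
    obtain ⟨m1, m2⟩ := c.int_m (u j)
    have e1 := int_le (f := fun t => (γ t).1 - t / 2) j.1 (fun t i => ⟨(d_fst (h t (v i)).1).1.sub
      ((hasDerivAt_id' t).div_const 2), (k t i).1⟩) (continuousOn_const.add (cn.const_smul (3 * B)))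
    have e2 := int_le (f := fun t => (γ t).2.1) j.1 (fun t i => ⟨(d_fst (d_fst (h t (v i)).1).2).1,
      (k t i).2.1.trans (k t i).2.2.2.2⟩) ((c.W.cont.2.1.mono (v.trans u)).const_smul B)
    have e3 := int_le (f := fun t => (γ t).2.2) j.1 (fun t i => ⟨(d_fst (d_fst (h t (v i)).1).2).2,
      (k t i).2.2.1⟩) (cn.const_smul (3 * B))
    rw [intervalIntegral.integral_add (by simp)
      ((cn.intervalIntegrable_of_Icc j.1).const_mul _), intervalIntegral.integral_const,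
      intervalIntegral.integral_const_mul, Real.norm_eq_abs, smul_eq_mul] at e1
    rw [intervalIntegral.integral_const_mul] at e2 e3
    refine ⟨?_, e2.trans (mul_le_mul_of_nonneg_left m1 B0), ?_⟩
    · rw [show (γ s).1 - rb r2 s2 s = ((γ s).1 - s / 2 - ((γ s2).1 - s2 / 2)) + ((γ s2).1 - r2) by
        unfold rb; ring]
      exact (abs_add_le _ _).trans (by linarith)
    · have := norm_add_le ((γ s).2.2 - (γ s2).2.2) (γ s2).2.2
      have p0 := (norm_snd_le _).trans i2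
      have w1 := (c.W.pt s (u j)).1
      rw [sub_add_cancel] at this
      nlinarith [mul_le_mul_of_nonneg_left m2 B0]
  have cγ : ContinuousOn γ (Icc s2 s1) := fun t i => (h t i).1.continuousAt.continuousWithinAt
  have cr : Continuous (rb r2 s2) := by unfold rb; fun_prop
  have key := bootI (f := fun t => max (max (|(γ t).1 - rb r2 s2 t| - rb r2 s2 t / 2)
    (‖(γ t).2.1 - (γ s2).2.1‖ - 1)) (‖(γ t).2.2‖ - 2 * vp t)) (a := s2) (b := s1) (by
      have := c.W.cont.1.mono u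
      fun_prop) (by
      have w := (c.W.pt s2 ⟨le_rfl, by linarith [c.par.2.2.2.2]⟩).1
      have p0 := (norm_snd_le _).trans i2
      simp only [max_le_iff, rb, sub_self, zero_div, add_zero, norm_zero]
      exact ⟨⟨by linarith, by norm_num⟩, by linarith⟩) fun s j w => by
      obtain ⟨k1, k2, k3⟩ := st s j fun t i => by
        have := w t i
        simp only [max_le_iff, sub_nonpos] at this
        exact ⟨this.1.1, this.1.2, this.2⟩
      have w1 := c.W.pt s (u j)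
      have d := sub_nonneg.2 j.1
      simp only [max_lt_iff, sub_neg]
      refine ⟨⟨?_, by linarith⟩, by linarith⟩
      unfold rb at k1 ⊢
      nlinarith [mul_le_mul_of_nonneg_left w1.2.2.2.2.2.2.2.1 B0]
  have wb : ∀ t ∈ Icc s2 s1, Wb r2 s2 vp (γ s2).2.1 t (γ t) := fun t i => by
    have := key t i
    simp only [max_le_iff, sub_nonpos] at this
    exact ⟨this.1.1, this.1.2, this.2⟩
  exact fun s j => ⟨wb s j, st s j fun t i => wb t ⟨i.1, i.2.trans j.2⟩⟩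

end Cx

end Vale.Agent.P354SA
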