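import Vale.Agent.P354SA.Far

/-!
Block S1: exact statements of the pieces of FAR.
-/

open scoped ContDiff
open Set Filter Topology

noncomputable section

namespace Vale.Agent.P354SA

open Vale.Agent.P354n (R4)
open Vale.Agent.P354H (X3)
open Vale.Agent.P354R (Met)
open Vale.Agent.P354XE (Tw pb)
open Vale.Agent.P354YQ (SA JB JD Sol)

/-! ### The weights -/

def rb (r2 s2 s : ℝ) : ℝ := r2 + (s - s2) / 2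

structure Wf (σ δ T s2 r2 C1 b B e η ε : ℝ) (vp m nn : ℝ → ℝ) : Prop where
  cont : ContinuousOn vp (Icc s2 (3 * T)) ∧ ContinuousOn m (Icc s2 (3 * T)) ∧
    ContinuousOn nn (Icc s2 (3 * T))
  mono : MonotoneOn vp (Icc s2 (3 * T))
  pt : ∀ s ∈ Icc s2 (3 * T), 2 * C1 ≤ vp s ∧ 4 * b * vp s ≤ rb r2 s2 s ∧ vp s ≤ ε * T ∧
    0 ≤ m s ∧ 0 ≤ nn s ∧ nn s ≤ m s * vp s ∧
    (∀ z : R4, z.1 = s → z.2.1 ∈ Icc (rb r2 s2 s / 2) (2 * rb r2 s2 s) →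
      nu B e σ δ T (vp s) z ≤ nn s) ∧
    ∫ t in s2..s, nn t ≤ η * (s - s2) ∧ (3 / 2 * T ≤ s → nn s ≤ η ∧ m s ≤ η)
  int : ∫ t in s2..3 * T, m t ≤ η
  sm : B * e ≤ η

/-- WTF: vp = √rb + κ (rb ^ (1 - θ) + rb ^ 2 / T), θ = min δ (σ - 1) / 2, e ≤ κ ^ 2. -/
def WTF : Prop :=
  ∀ σ ∈ Ioc (1 : ℝ) 2, ∀ δ ∈ Ioc (0 : ℝ) 1, ∀ C1 ≥ 1, ∀ b ≥ 1, ∀ B ≥ 1, ∀ η > 0, ∃ r0,
    ∀ r2 ≥ r0, ∀ C3, ∀ ε > 0, ∃ e0 > 0, ∃ T0, ∀ e ∈ Ioc 0 e0, ∀ T ≥ T0, ∀ s2 ∈ Icc 0 C3,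
      ∃ vp m nn, Wf σ δ T s2 r2 C1 b B e η ε vp m nn

/-! ### The local calculus -/

/-- The state in the units of the point z, and κ. -/
def nz (Y : R4 → E5) (z x : R4) : E5 × ℝ :=
  (((Y x).1 / (Y z).1, (Y x).2.1, (Y z).1⁻¹ • (Y x).2.2), kv Y e1 x)

structure Lc (K m l : ℝ) (g : Tw) (D : Set R4) (Y : R4 → E5) (z : R4) : Prop where
  met : IsOpen D ∧ Met g D
  sol : ∀ᶠ x in 𝓝 z, Sol e0 (cf g) Y x ∧ pq Y x ∈ Ug g D ∧ ∀ a, kv Y (ey a) x = 0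
  par : 1 ≤ (Y z).1 ∧ (Y z).1⁻¹ ≤ m ∧ 1 ≤ l ∧ l * m ≤ K ∧ ‖(Y z).2.2‖ ≤ (Y z).1
  kap : kv Y e1 z ∈ Icc K⁻¹ K
  inv : ∀ y, ‖y‖ ≤ K * ‖dη Y z y‖

/-- The joint jets. -/
def Jn (n : ℕ) (K l : ℝ) (Y : R4 → E5) (z : R4) : Prop :=
  JD n (fun ξ => nz Y z (dl l 1 z ξ)) 0 K

/-- JNT: from the jets along the slice to the joint jets. -/
def JNT : Prop :=
  ∀ (n : ℕ) (K B : ℝ), ∃ C ≥ 1, ∀ m l g D Y z, Lc K m l g D Y z →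
    Cs (n + 1) l (Hm g) (pq Y z) (B * (Y z).1 * m) → JD n (fun x => nz Y z (z.1, x)) z.2 K →
    Jn n C l Y z

/-- The radial part of the outgoing null vector. -/
def lr (g : Tw) (Y : R4 → E5) (x : R4) : ℝ :=
  (fderiv ℝ (Ph Y) x (lh (pb (Ph Y) g) x)).2.1 - a0 (pb (Ph Y) g) x * (Wv g (pq Y x)).2.1

structure Rq (n : ℕ) (C r m l : ℝ) (g g' : Tw) (Y : R4 → E5) (z : R4) : Prop where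
  pos : C⁻¹ ≤ Om g' z ∧ C⁻¹ * r ^ 4 ≤ dg g' z ∧ 0 < gm g' 0 0 z
  one : Cl n l 1 (Om g') z C ∧ Cl n l 1 (a0 g') z C ∧ (∀ a, Cl n l 1 (a1 g' a) z C) ∧
    ∀ a b, Cl n l 1 (gm g' a b) z (C * r ^ 2)
  dO : Cl n l 1 (dv e0 (Om g')) z (C * m)
  d0 : Cl n l 1 (dv e0 (a0 g')) z (C * m)
  d1 : ∀ a, Cl n l 1 (dv e0 (a1 g' a)) z (C * m / r)
  dg : ∀ a b, Cl n l 1 (dv e0 (gm g' a b)) z (C * r ^ 2 * m)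
  chi : ∀ a b, Cl n l 1 (lie g' (lh g') a b) z (C * r ^ 2 * m)
  cur : ∀ i j k o, Cl n l 1 (rie g' (fv (lh g') e0 r) i j k o) z (C * m)
  two : ∀ a b, Cl n l 1 (a2 g' a b) z (C / r ^ 2)
  wr : Cl n l 1 (fun x => (Wv g (pq Y x)).2.1) z (C * r * m)
  lr : Cl n l 1 (lr g Y) z C ∧ |lr g Y z - kv Y e1 z| ≤ C / r ∧ |a0 g' z| ≤ C / r

/-- RPF: the metric in the chart of the rays. -/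
def RPF : Prop :=
  ∀ (n : ℕ), ∀ K ≥ 1, ∀ B ≥ 1, ∃ C ≥ 1, ∀ m l r' m' g D Y z, Lc K m l g D Y z →
    Jn (n + 1) K l Y z → Fp (n + 2) B m l g (pq Y z) → (Y z).1 ≤ K * r' → r' ≤ K * (Y z).1 →
    m ≤ K * m' → Rq n C r' m' l g (pb (Ph Y) g) Y z

/-! ### Implicit functions and slices -/

def ROOT : Prop :=
  ∀ (F : R4 → ℝ) (S : X3 → ℝ) (x : X3) (a : ℝ), 0 < a → SA F (S x, x) → F (S x, x) = 0 →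
    fderiv ℝ F (S x, x) e0 ≠ 0 → (∀ᶠ y in 𝓝 x, ∀ s, |s - S x| < a → F (s, y) = 0 → s = S y) →
    SA S x ∧ ∀ᶠ y in 𝓝 x, F (S y, y) = 0

def IMPJ : Prop :=
  ∀ (n : ℕ) (C : ℝ), ∃ C' ≥ 1, ∀ (F : R4 → ℝ) (S : X3 → ℝ) (x : X3), SA S x →
    (∀ᶠ y in 𝓝 x, F (S y, y) = 0) → JD n F (S x, x) C → 0 < C →
    C⁻¹ ≤ |fderiv ℝ F (S x, x) e0| → JD n S x C'

/-- BTJ: the jets on the initial slice. -/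
def BTJ : Prop :=
  ∀ (n : ℕ), ∀ K ≥ 1, ∃ C ≥ 1, ∀ T L l m (f : ℝ → ℝ) g D Y (S : X3 → ℝ) x, 1 ≤ L → L ^ 2 ≤ T →
    C ≤ T → Lc K m L g D Y (S x, x) → Jn (n + 1) K L Y (S x, x) →
    Rq n K T T⁻¹ L g (pb (Ph Y) g) Y (S x, x) → (Y (S x, x)).1 ∈ Icc (T / 2) (2 * T) →
    JD (n + 1) (fun ξ => f ((Y (S x, x)).1 + (Y (S x, x)).1 * ξ)) 0 (K * (Y (S x, x)).1) →
    |l - 1| ≤ 1 / 50 → |deriv f (Y (S x, x)).1 - 1| ≤ 1 / 50 →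
    |(Wv g (pq Y (S x, x))).2.1 - 1 / 2| ≤ 1 / 50 → SA S x →
    (∀ᶠ y in 𝓝 x, fi l T f (Ph Y (S y, y)) = 0) →
    JD (n + 1) (fun ξ => S (x + (L / T) • ξ)) 0 (C * L) ∧
      JB n (fun ξ => trv S (pb (Ph Y) g) (S (x + (L / T) • ξ), x + (L / T) • ξ)) 0 C ∧
      trv S (pb (Ph Y) g) (S x, x) ∈ Icc C⁻¹ C ∧
      JD n (fun y => ((Y (S y, y)).1, (Y (S y, y)).2.1)) x ((C * T) ^ n)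

/-- The slice s = S x at the point x. -/
structure Sx (C1 P : ℝ) (Y : R4 → E5) (S : X3 → ℝ) (η0 : X3 → Y2) (x : X3) : Prop where
  sm : SA Y (S x, x) ∧ SA S x ∧ SA η0 x
  kap : (∀ a, kv Y (ey a) (S x, x) = 0) ∧ kv Y e1 (S x, x) ∈ Icc (2 * C1)⁻¹ (2 * C1)
  p : ‖(Y (S x, x)).2.2‖ ≤ P
  near : ‖fderiv ℝ (fun y => (Y (S x, y)).2.1 - η0 y) x‖ ≤ (8 * C1)⁻¹
  ref : ‖fderiv ℝ η0 x‖ ≤ C1 ∧ ∀ y : Y2, ‖y‖ ≤ C1 * ‖fderiv ℝ η0 x (0, y)‖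
  slope : ∃ c : ℝ, |c| ≤ 3 ∧ c * (fderiv ℝ Y (S x, x) e0).1 ∈ Icc 0 2 ∧
    |c| * ‖(fderiv ℝ Y (S x, x) e0).2.1‖ * (1 + ‖(Y (S x, x)).2.2‖) ≤ (100 * C1 ^ 2)⁻¹ ∧
    ∀ ξ, fderiv ℝ S x ξ = c * (fderiv ℝ Y (S x, x) (0, ξ)).1

/-- SLC: the spheres on a slice. -/
def SLC : Prop :=
  ∀ C1 ≥ 1, ∀ P Y S η0 (W : Set X3), Convex ℝ W → (∀ x ∈ W, Sx C1 P Y S η0 x) →
    (∀ x ∈ W, ∀ x' ∈ W, x.1 = x'.1 → ‖x.2 - x'.2‖ ≤ C1 * ‖η0 x - η0 x'‖) →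
    Sl2 (2 * C1) (6 * P) (12 * C1) W (fun x => (Y (S x, x)).1) (fun x => (Y (S x, x)).2.1) ∧
      ∀ x ∈ W, ∀ a, |fderiv ℝ S x (ey a).2| ≤ 12 * C1 * P

/-! ### The two halves of FAR -/

/-- The bounds along the rays; η0 is the angle at the time s2. -/
structure Pz0 (n : ℕ) (C1 K0 K P b T s2 r2 : ℝ) (g : Tw) (Y : R4 → E5) (z : R4) : Prop where
  r : |(Y z).1 - rb r2 s2 z.1| ≤ C1 + (z.1 - s2) / 200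
  η : ‖(Y z).2.1 - (Y (s2, z.2)).2.1‖ ≤ (200 * C1)⁻¹
  p : ‖(Y z).2.2‖ ≤ P ∧ ‖(Y z).2.2‖ ≤ (Y z).1 / b
  kap : kv Y e1 z ∈ Icc (3 / 2 * C1)⁻¹ (3 / 2 * C1)
  near : ‖fderiv ℝ (fun y => (Y (z.1, y)).2.1 - (Y (s2, y)).2.1) z.2‖ ≤ (16 * C1)⁻¹
  jets : JD 4 (fun x => nz Y z (z.1, x)) z.2 K0 ∧ JD (n + 1) (fun x => nz Y z (z.1, x)) z.2 K
  bot : 3 / 2 * T ≤ z.1 → |(Wv g (pq Y z)).2.1 - 1 / 2| ≤ 1 / 100 ∧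
    ‖(Wv g (pq Y z)).2.2‖ * (1 + ‖(Y z).2.2‖) ≤ (600 * C1 ^ 2)⁻¹

structure Fl (n : ℕ) (C1 K0 K P b T w s2 r2 l : ℝ) (f : ℝ → ℝ) (g : Tw) (D : Set R4)
    (Y0 : R4 → E5) (Ω : Set R4) (Y : R4 → E5) (S : X3 → ℝ) : Prop where
  opn : IsOpen Ω
  sol : ∀ z ∈ Ω, Sol e0 (cf g) Y z ∧ pq Y z ∈ Ug g D ∧ z.2 ∈ Wk w 2 ∧
    ∀ s ∈ uIcc s2 z.1, (s, z.2) ∈ Ω
  eq : ∀ z : R4, z.2 ∈ Wk w 2 → |z.1 - s2| < 1 → z ∈ Ω ∧ Y z = Y0 z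
  hit : ∀ x ∈ Wk w 2, S x ∈ Icc s2 (3 * T) ∧ (S x, x) ∈ Ω ∧ fi l T f (Ph Y (S x, x)) = 0 ∧
    (∀ s ∈ Ico s2 (S x), 0 < fi l T f (Ph Y (s, x))) ∧
    ∀ s ∈ Icc s2 (S x), Pz0 n C1 K0 K P b T s2 r2 g Y (s, x) ∧
      |(Y (s, x)).1 - rb r2 s2 s| ≤ C1 + P

/-- FLOW: the rays exist up to the initial slice. -/
def FLOW : Prop :=
  ∀ σ ∈ Ioc (1 : ℝ) 2, ∀ δ ∈ Ioc (0 : ℝ) 1, ∀ C1 ≥ 1, ∀ b ≥ 1, ∀ B0 ≥ 1, ∃ r0, ∀ r2 ≥ r0,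
    ∀ C2 ≥ 1, ∃ K0 ≥ 1, ∀ (n : ℕ), ∀ B ≥ 1, ∀ C3 ≥ 1, ∃ K ≥ 1, ∀ ε > 0, ∃ e0 > 0, ∃ T0,
      ∀ w, ∀ e ∈ Ioc 0 e0, ∀ T L s2 l f g D Y0, T0 ≤ T → s2 ∈ Icc 0 C3 →
        FS 9 (C1 + 2) b B0 e σ δ T L r2 l f g D → FS (n + 5) (C1 + 2) b B e σ δ T L r2 l f g D →
        Exit (n + 4) C1 C2 C3 w s2 r2 g Y0 →
        ∃ Ω Y S, Fl n C1 K0 K (ε * T) b T w s2 r2 l f g D Y0 Ω Y S

/-- The second half. -/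
def FEND : Prop := FLOW → JNT → RPF → ROOT → BTJ → SLC → FAR

end Vale.Agent.P354SA
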