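import Vale.Agent.P354SA.Defs
import Vale.Agent.P354KX.Defs
import Vale.Agent.P354YQ.Ex

/-!
Block S1: the rays. The Hamilton-Jacobi form of the null condition, tools, the far structure, and
the exact statements of the pieces.
-/

open scoped ContDiff
open Set Filter Topology

noncomputable section

namespace Vale.Agent.P354SA

open Vale.Agent.P354n (R4)
open Vale.Agent.P354H (X3)
open Vale.Agent.P354C (Ix met detP)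
open Vale.Agent.P354A (cmp)
open Vale.Agent.P354I (X P3 Dat rm rp)
open Vale.Agent.P354GT (Fu)
open Vale.Agent.P354R (Met Vac Pull)
open Vale.Agent.P354RC (Rm cv)
open Vale.Agent.P354XD (tb)
open Vale.Agent.P354XE (Tw pb gin rd xs ur Lor Par En IsEnd ch kap ka)
open Vale.Agent.P354XB (Box top Win Gro Slab)
open Vale.Agent.P354XP (Cht Hull)
open Vale.Agent.P354YQ (SA JB JD Sol)
open Vale.Agent.P354YM (Pm Tg Jd Bs)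

/-! ### Null hypersurfaces as graphs ρ = ϱ (a, η) in a chart (a, ρ, η); p is the gradient in η -/

abbrev Y2 : Type := ℝ × ℝ
abbrev Q6 : Type := R4 × Y2
abbrev E5 : Type := ℝ × Y2 × Y2

def dot (p η : Y2) : ℝ := p.1 * η.1 + p.2 * η.2
def xp (p : Y2) : R4 →L[ℝ] ℝ := cv 1 - p.1 • cv 2 - p.2 • cv 3
def ig (g : Tw) (z : R4) (α β : R4 →L[ℝ] ℝ) : ℝ := β ((tb g z).inverse α)
def qb (g : Tw) (q : Q6) : ℝ := ig g q.1 (cv 0) (xp q.2)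
def qd (g : Tw) (q : Q6) : ℝ := qb g q ^ 2 - ig g q.1 (cv 0) (cv 0) * ig g q.1 (xp q.2) (xp q.2)

/-- The form xi = dρ - p dη - H da is null, and g (W, ·) = c xi with da (W) = 1. -/
def Hm (g : Tw) (q : Q6) : ℝ := ig g q.1 (xp q.2) (xp q.2) / (qb g q + √(qd g q))
def cc (g : Tw) (q : Q6) : ℝ := (√(qd g q))⁻¹
def xi (g : Tw) (q : Q6) : R4 →L[ℝ] ℝ := xp q.2 - Hm g q • cv 0
def Wv (g : Tw) (q : Q6) : R4 := cc g q • (tb g q.1).inverse (xi g q)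
def Ug (g : Tw) (D : Set R4) : Set Q6 := {q | q.1 ∈ D ∧ 0 < qb g q ∧ 0 < qd g q}
def Hd (g : Tw) (v : R4) (q : Q6) : ℝ := fderiv ℝ (Hm g) q (v, 0)

/-- The characteristic field for the state y = (ρ, η, p), at the time w.1. -/
def ph (w : R4) (y : E5) : Q6 := ((w.1, y.1, y.2.1), y.2.2)
def cf (g : Tw) (a : R4 × E5) : E5 :=
  ((Wv g (ph a.1 a.2)).2.1, (Wv g (ph a.1 a.2)).2.2,
    Hd g (ey 0) (ph a.1 a.2) + a.2.2.2.1 * Hd g e1 (ph a.1 a.2),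
    Hd g (ey 1) (ph a.1 a.2) + a.2.2.2.2 * Hd g e1 (ph a.1 a.2))

/-- For a family Y (s, v, y) of states: the points, the phase points, the form dρ - p dη, and the
derivative of η in y. -/
def Ph (Y : R4 → E5) (z : R4) : R4 := (z.1, (Y z).1, (Y z).2.1)
def pq (Y : R4 → E5) (z : R4) : Q6 := ph z (Y z)
def kv (Y : R4 → E5) (w z : R4) : ℝ := xp (Y z).2.2 (fderiv ℝ (Ph Y) z w)
def dη (Y : R4 → E5) (z : R4) (y : Y2) : Y2 := (fderiv ℝ (Ph Y) z (0, 0, y)).2.2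

/-- The lines along e0 generate null hypersurfaces. -/
def Nul (g : Tw) (z : R4) : Prop := g z e0 e0 = 0 ∧ ∀ a, g z e0 (ey a) = 0

def HJU : Prop :=
  ∀ g D, IsOpen D → Met g D → IsOpen (Ug g D) ∧ ContDiffOn ℝ ∞ (Hm g) (Ug g D) ∧
    ContDiffOn ℝ ∞ (cc g) (Ug g D) ∧ ContDiffOn ℝ ∞ (Wv g) (Ug g D) ∧
    IsOpen {a : R4 × E5 | ph a.1 a.2 ∈ Ug g D} ∧
    ContDiffOn ℝ ∞ (cf g) {a | ph a.1 a.2 ∈ Ug g D} ∧ ∀ q ∈ Ug g D, 0 < cc g q ∧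
      (Wv g q).1 = 1 ∧ xi g q (Wv g q) = 0 ∧ (∀ v, g q.1 (Wv g q) v = cc g q * xi g q v) ∧
      (∀ π, fderiv ℝ (Hm g) q (0, π) = -dot π (Wv g q).2.2) ∧
      ∀ (V : R4) (c H : ℝ), 0 < c → V.1 = 1 → xp q.2 V = H →
        (∀ v, g q.1 V v = c * (xp q.2 v - H * v.1)) → V = Wv g q ∧ H = Hm g q ∧ c = cc g q

def RAY : Prop :=
  ∀ g D (Y : R4 → E5), IsOpen D → Met g D →
    (∀ z, Sol e0 (cf g) Y z → pq Y z ∈ Ug g D → fderiv ℝ (Ph Y) z e0 = Wv g (pq Y z) ∧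
      pb (Ph Y) g z e0 e0 = 0 ∧ ∀ w : R4, w.1 = 0 →
        dv e0 (kv Y w) z = Hd g e1 (pq Y z) * kv Y w z ∧
        pb (Ph Y) g z e0 w = cc g (pq Y z) * kv Y w z) ∧
    ∀ x a b, (∀ s ∈ uIcc a b, Sol e0 (cf g) Y (s, x) ∧ pq Y (s, x) ∈ Ug g D) →
      ∀ w : R4, w.1 = 0 → kv Y w (b, x) =
        Real.exp (∫ s in a..b, Hd g e1 (pq Y (s, x))) * kv Y w (a, x)

def CHAR : Prop :=
  ∀ g D (Y : R4 → E5) z, IsOpen D → Met g D → SA Y z →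
    (∀ᶠ x in 𝓝 z, pq Y x ∈ Ug g D ∧ Nul (pb (Ph Y) g) x ∧ (∀ a, kv Y (ey a) x = 0) ∧
      0 < g (Ph Y x) (fderiv ℝ (Ph Y) x e0) e1 ∧ ∀ y, dη Y x y = 0 → y = 0) →
    Sol e0 (cf g) Y z

/-- Jets of solutions of an ODE with an integrable rate; A is an increasing scale. -/
def JET : Prop :=
  ∀ (n : ℕ) (A0 C : ℝ), ∃ C' ≥ 1, ∀ (X E : Type) [NormedAddCommGroup X] [NormedSpace ℝ X]
    [NormedAddCommGroup E] [NormedSpace ℝ E] [CompleteSpace E] (Z : ℝ × X → E)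
    (A Ai : ℝ → E →L[ℝ] E) (W : ℝ → X × E → E) (m : ℝ → ℝ) (a b : ℝ) (x : X),
    ContinuousOn m (Icc a b) → ContinuousOn Ai (Icc a b) → ∫ s in a..b, m s ≤ A0 →
    (∀ s ∈ Icc a b, 0 ≤ m s ∧ SA Z (s, x) ∧ (∀ v, A s (Ai s v) = v) ∧
      (∀ s' ∈ Icc a s, ‖(Ai s).comp (A s')‖ ≤ 1) ∧ JD n (W s) (x, Ai s (Z (s, x))) (m s) ∧
      ∀ᶠ y in 𝓝 x, fderiv ℝ Z (s, y) (1, 0) = A s (W s (y, Ai s (Z (s, y))))) →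
    JD n (fun y => Ai a (Z (a, y))) x C → ∀ s ∈ Icc a b,
      JD n (fun y => Ai s (Z (s, y))) x C' ∧
      JD n (fun y => Ai s (Z (s, y) - Z (a, y))) x (C' * ∫ t in a..s, m t)

/-- A family of spheres ρ = ϱ (v, η) which increases with v. -/
structure Sl2 (C0 P K : ℝ) (W : Set X3) (ρ : X3 → ℝ) (η : X3 → Y2) : Prop where
  sm : ContDiffOn ℝ ∞ ρ W ∧ ContDiffOn ℝ ∞ η W
  lip : ∀ x ∈ W, ‖fderiv ℝ η x‖ ≤ C0 ∧ ∀ y : Y2, ‖y‖ ≤ C0 * ‖fderiv ℝ η x (0, y)‖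
  bil : ∀ x ∈ W, ∀ x' ∈ W, x.1 = x'.1 → ‖x.2 - x'.2‖ ≤ C0 * ‖η x - η x'‖
  form : ∀ x ∈ W, ∃ κ ∈ Icc K⁻¹ K, ∃ p : Y2, ‖p‖ ≤ P ∧
    ∀ ξ, fderiv ℝ ρ x ξ = κ * ξ.1 + dot p (fderiv ℝ η x ξ)

def Wd (a b r : ℝ) : Set X3 := {x | x.1 ∈ Ioo a b ∧ ‖x.2‖ < r}
def Wk (w k : ℝ) : Set X3 := Wd (-(5 + k) * w) ((6 + k) * w) (15 / 2 + k / 2)

/-- MON: lift the path along v with constant η. -/
def MON : Prop :=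
  ∀ C0 P K a b r ρ η, 0 < K → C0 ^ 2 * (b - a) < 1 / 4 → Sl2 C0 P K (Wd a b (r + 1 / 4)) ρ η →
    ∀ x ∈ Wd a b r, ∀ x' ∈ Wd a b r, x.1 ≤ x'.1 →
      K⁻¹ * (x'.1 - x.1) - 2 * C0 ^ 2 * P * ‖η x' - η x‖ ≤ ρ x' - ρ x

/-! ### From bounds on the closed region to Ray -/

def RK (w a δ : ℝ) (S : X3 → ℝ) : Set R4 := {z | z.2 ∈ Wk w 1 ∧ a < z.1 ∧ z.1 < S z.2 + δ}

/-- The bounds of Ray at z. -/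
def Rz (n : ℕ) (C0 C T L sc σ : ℝ) (g : Tw) (z : R4) : Prop :=
  Rp n C0 C (jb (z.1 - z.2.1)) (mm T σ (z.1 - z.2.1)) (if 5 / 3 * T ≤ z.1 - z.2.1 then L else 1)
    (jb (z.1 - z.2.1 - sc)) g z

/-- The bounds for the initial slice. -/
def Bt (n : ℕ) (C ε T L : ℝ) (S : X3 → ℝ) (g : Tw) (x : X3) : Prop :=
  (|S x - 2 * T| ≤ ε * T ∧ (∀ a, |fderiv ℝ S x (ey a).2| ≤ ε * T) ∧
    JD (n + 1) (fun ξ => S (x + (L / T) • ξ)) 0 (C * L) ∧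
    JB n (fun ξ => trv S g (S (x + (L / T) • ξ), x + (L / T) • ξ)) 0 C) ∧
  SA S x ∧ trv S g (S x, x) ∈ Icc C⁻¹ C

def FAT : Prop :=
  ∀ n C0 C ε T L w δ0 sc σ S g O, 1 ≤ C0 → 1 ≤ C → 0 < δ0 → sc ∈ Icc 0 C → σ ∈ Ioc 1 2 →
    w ∈ Ioc 0 (1 / 10) → 20 ≤ T → ε ≤ 1 / 10 → O = {z ∈ RK w (-2) δ0 S | z.2.1 - δ0 < z.1} →
    Met g O → Vac g O → (∀ z ∈ O, Nul g z ∧ (z.2.1 ≤ z.1 → z.1 ≤ S z.2 → Rz n C0 C T L sc σ g z) ∧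
      (z.1 = z.2.1 → |a0 g z| ≤ 1 / 20)) → (∀ x ∈ Wk w 1, Bt n C ε T L S g x) →
    ∃ δ ∈ Ioc 0 δ0, Ray n (2 * C0) (2 * C) ε T L w δ sc T σ S g

/-! ### The far structure, in the chart (s, r, η); u = T - s -/

def om (T σ : ℝ) (z : R4) : ℝ := jb (T - z.1) ^ (-σ)
def mz (T σ : ℝ) (z : R4) : ℝ := z.2.1⁻¹ + om T σ z
def nu (B e σ δ T ϖ : ℝ) (z : R4) : ℝ :=
  B * (z.2.1⁻¹ + e * (om T δ z + z.2.1 ^ (-δ) + z.2.1 * om T σ z) + (ϖ / z.2.1) ^ 2)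

/-- Derivatives in s gain l, derivatives in r and p gain r. -/
def dq (l : ℝ) (q ξ : Q6) : Q6 := q + ((l * ξ.1.1, q.1.2.1 * ξ.1.2.1, ξ.1.2.2), q.1.2.1 • ξ.2)
def Cs (n : ℕ) (l : ℝ) (f : Q6 → ℝ) (q : Q6) (c : ℝ) : Prop := JB n (fun ξ => f (dq l q ξ)) 0 c

/-- The tangents of the spheres, their products, and the frame. -/
def tv (p : Y2) (a : Fin 2) : R4 := ey a + ![p.1, p.2] a • e1
def Gp (g : Tw) (a b : Fin 2) (q : Q6) : ℝ := g q.1 (tv q.2 a) (tv q.2 b)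
def zt (g : Tw) (a : Fin 2) (q : Q6) : ℝ := g q.1 e1 (tv q.2 a)
def fq (g : Tw) (q : Q6) : Fin 4 → R4 :=
  ![e1, Wv g q, q.1.2.1⁻¹ • tv q.2 0, q.1.2.1⁻¹ • tv q.2 1]

structure Fp (n : ℕ) (B m l : ℝ) (g : Tw) (q : Q6) : Prop where
  hm : Cs n l (Hm g) q (B * q.1.2.1 * m)
  c : Cs n l (fun x => cc g x - 1) q (B * m) ∧ cc g q ∈ Icc (1 / 2) 2
  G : ∀ a b, Cs n l (Gp g a b) q (B * q.1.2.1 ^ 2) ∧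
    Cs n l (fun x => fderiv ℝ (Gp g a b) x (e0, 0)) q (B * q.1.2.1 ^ 2 * m)
  pos : B⁻¹ * q.1.2.1 ^ 4 ≤ Gp g 0 0 q * Gp g 1 1 q - Gp g 0 1 q ^ 2 ∧ 0 < Gp g 0 0 q
  z : ∀ a, Cs n l (zt g a) q B
  A : Cs n l (fun x => g x.1 e1 e1) q (B / q.1.2.1)
  cur : ∀ i j k o, Cs n l (fun x => Rm (tb g) x.1 (fq g x i) (fq g x j) (fq g x k) (fq g x o)) q
    (B * m)

/-- The small part: p has the scale ϖ, no derivatives in s. -/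
def Fs (n : ℕ) (B e σ δ T : ℝ) (g : Tw) (q : Q6) : Prop :=
  ∀ ϖ ∈ Icc 0 q.1.2.1, ‖q.2‖ ≤ 2 * ϖ → |Hm g q - 1 / 2| ≤ B * e + nu B e σ δ T ϖ q.1 ∧
    JD n (fun ξ : E5 => Hm g (q + ((0, q.1.2.1 * ξ.1, ξ.2.1), ϖ • ξ.2.2))) 0 (nu B e σ δ T ϖ q.1)

/-- The initial slice is fi = 0. -/
def fi (l T : ℝ) (f : ℝ → ℝ) (z : R4) : ℝ := l * (T - z.1) + f z.2.1

structure FS (n : ℕ) (E b B e σ δ T L r2 l : ℝ) (f : ℝ → ℝ) (g : Tw) (D : Set R4) : Prop where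
  met : IsOpen D ∧ Met g D ∧ Vac g D
  hl : |l - 1| ≤ e
  hf : ∀ r ≥ r2 / 2, JD n (fun ξ => f (r + r * ξ)) 0 (B * r) ∧
    |deriv f r - 1| ≤ B * (e + r⁻¹) ∧ |f r - r| ≤ B * (e * r + √r)
  pt : ∀ q : Q6, r2 / 2 ≤ q.1.2.1 → ‖q.1.2.2‖ ≤ E → 0 ≤ fi l T f q.1 → ‖q.2‖ ≤ q.1.2.1 / b →
    q ∈ Ug g D ∧ Fs n B e σ δ T g q ∧ Fp n B (mz T σ q.1) 1 g q ∧
      (3 / 2 * T ≤ q.1.1 → q.1.2.1 ∈ Icc (T / 2) (2 * T) → Fp n B (mz T σ q.1) L g q)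

/-- One end of a development, in the ingoing chart. -/
structure Ed (P : Pm) (g : Tw) (D : Set R4) (Y : R4 → R4) (q q' : Par) (β : Fin 3 → R4 → ℝ) :
    Prop where
  met : IsOpen D ∧ Met g D ∧ Vac g D
  sub : En P.M P.a P.r1 P.θ ⊆ D
  sig : ∀ p ∈ En P.M P.a P.r1 P.θ, g p (Y p) (Y p) < 0 ∧ ∃ L : R4 → R4, IsLinearMap ℝ L ∧
    L.Injective ∧ ∀ v w, g p v w = P354n.mink (L v) (L w)
  isEnd : IsEnd P.M P.a P.r1 P.θ P.R P.s P.δ P.ε P.N g Y q q' β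

/-- The time of the initial slice, the far chart, and the function f. -/
def tS (M a r : ℝ) : ℝ := (Fq M a r - r) / 2
def Tq (q : Par) (σ : Bool) (T : ℝ) : R4 → R4 := q.lin ∘ Th q.M q.a σ T
def fz (M a : ℝ) (q : Par) (r : ℝ) : ℝ := q.l * Fq q.M q.a r - tS M a r
def Dq (M : ℝ) (q : Par) (σ : Bool) (T : ℝ) (D : Set R4) : Set R4 :=
  {z | 3 * M < z.2.1 ∧ Tq q σ T z ∈ D}

/-- CHF: facts about the far chart. -/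
def CHF : Prop :=
  ∀ M a, |a| < M → ∃ ε > 0, ∃ r0 ≥ 3 * M, ∀ (q : Par) σ T, q.Near M a ε →
    (∀ g D, IsOpen D → Met g D → Pull (Tq q σ T) (pb (Tq q σ T) g) (Dq M q σ T D) g D) ∧
    InjOn (Tq q σ T) {z | 3 * M < z.2.1} ∧ ∀ z : R4, 3 * M < z.2.1 → rd (Tq q σ T z) = z.2.1 ∧
      ur q.M q.a (P354YM.inv q (Tq q σ T z)) = T - z.1 ∧
      (0 < (kap M a (Tq q σ T z)).1 ↔ 0 < fi q.l T (fz M a q) z) ∧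
      ((kap M a (Tq q σ T z)).1 = 0 ↔ fi q.l T (fz M a q) z = 0) ∧
      (r0 ≤ z.2.1 → 0 ≤ fi q.l T (fz M a q) z → 0 ≤ (Tq q σ T z).1) ∧
      (r0 ≤ z.2.1 → q.l * (T - z.1) + 199 / 100 * z.2.1 ≤ (Tq q σ T z).1 + z.2.1) ∧
      ∀ c, q.Near M a (c / 20) → c ≤ 1 - z.2.2.1 ^ 2 - z.2.2.2 ^ 2 →
        0 < P354E.sg σ * (Tq q σ T z).2.2.2

/-- C: the far structure from the estimates of EXT. -/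
def FARC : Prop :=
  ∀ M a s δ E, |a| < M → 1 < s → 0 < δ → ∃ b ≥ 1, ∃ r0, ∀ n : ℕ, ∃ B ≥ 1, ∀ ρ, ∃ T0, ∀ e > 0,
    ∃ ε0 > 0, ∀ (P : Pm) g D Y q q' β σ T L r2, P.M = M → P.a = a → P.s = s → P.δ = δ → P.R = ρ →
      P.r1 ≤ 2 * M → P.θ ≤ 1 → n + 4 ≤ P.N → P.ε ≤ ε0 → Ed P g D Y q q' β → r0 ≤ r2 → T0 ≤ T →
      1 ≤ L → L ^ (n + 4) ≤ T ^ (min s 2 - 1) →
      FS n E b B e (min s 2) (min δ 1) T L r2 q'.l (fz M a q') (pb (Tq q' σ T) g) (Dq M q' σ T D)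

/-! ### The near rays, the far rays, the bottom -/

/-- The rays near the time s2 in the far chart. -/
structure Exit (n : ℕ) (C1 C2 C3 w s2 r2 : ℝ) (g : Tw) (Y : R4 → E5) : Prop where
  strip : ∀ z : R4, z.2 ∈ Wk w 2 → |z.1 - s2| < 1 → SA Y z ∧ Nul (pb (Ph Y) g) z ∧
    (∀ a, kv Y (ey a) z = 0) ∧ 0 < g (Ph Y z) (fderiv ℝ (Ph Y) z e0) e1 ∧
    |(Y z).1 - r2| ≤ C1 ∧ ‖(Y z).2‖ ≤ C1 ∧ ∀ y, ‖y‖ ≤ C1 * ‖dη Y z y‖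
  jets : ∀ x ∈ Wk w 2, JD 1 (fun x => Y (s2, x)) x C1 ∧ JD 8 (fun x => Y (s2, x)) x C2 ∧
    JD n (fun x => Y (s2, x)) x C3 ∧ kv Y e1 (s2, x) ∈ Icc C1⁻¹ C1 ∧
    (‖x.2‖ ≤ 1 / 2 → C1⁻¹ ≤ 1 - (Y (s2, x)).2.1.1 ^ 2 - (Y (s2, x)).2.1.2 ^ 2) ∧
    ∀ x' ∈ Wk w 2, x.1 = x'.1 → ‖x.2 - x'.2‖ ≤ C1 * ‖(Y (s2, x)).2.1 - (Y (s2, x')).2.1‖

/-- The top slice in the ingoing chart; x = (v, y) is centered at R. -/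
def Jt (j : Jd) (q : Par) (c φ : ℝ) (b σ : Bool) (R : ℝ) (x : X3) : R4 :=
  q.lin (P354XM.sh c φ (tp j.k j.H b σ (P354YM.pp j.M q) j.T (x.1 + R, x.2)))

structure Nout (n : ℕ) (C1 C2 C3 w s2 r2 rr R T δ σe : ℝ) (j : Jd) (P : Pm) (g : Tw) (D : Set R4)
    (Y : R4 → R4) (q' : Par) (σ : Bool) (J : X3 → R4) (O : Set R4) (Φ : R4 → R4)
    (Y0 : R4 → E5) : Prop where
  dom : O = {z | z.2 ∈ Wk w 2 ∧ z.2.1 - δ < z.1 ∧ z.1 < s2 + 1}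
  par : 0 < δ ∧ T ∈ Icc (2 / 5 * R) (4 * R) ∧ s2 ∈ Icc 3 C3 ∧ 2 * j.T ≤ C3 ∧ |s2 - 2 * j.T| ≤ C2
  pull : Pull Φ (pb Φ g) O g D ∧ InjOn Φ O
  pt : ∀ z ∈ O, Nul (pb Φ g) z ∧ Φ z ∈ En P.M P.a P.r1 P.θ ∧ 0 < (kap P.M P.a (Φ z)).1 ∧
    (Φ z).1 + rd (Φ z) ∈ Icc (R / 4) (C3 * R) ∧ rr < rd (Φ z) ∧ JD (n + 1) Φ z C3 ∧
    (∀ v, ‖v‖ ≤ C3 * ‖fderiv ℝ Φ z v‖) ∧ (‖z.2.2‖ ≤ 1 / 2 → 0 < P354E.sg σ * (Φ z).2.2.2) ∧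
    (z.2.1 ≤ z.1 → ∀ L, Rz n C2 C3 T L (2 * j.T) σe (pb Φ g) z) ∧
    (z.1 = z.2.1 → Φ z = J z.2 ∧ |a0 (pb Φ g) z| ≤ 1 / 20 ∧
      0 < g (Φ z) (fderiv ℝ Φ z e0) (Y (Φ z))) ∧
    (r2 - C1 - 1 ≤ rd (Φ z) → ur q'.M q'.a (P354YM.inv q' (Φ z)) = T - z.1) ∧
    (s2 - 1 < z.1 → Φ z = Tq q' σ T (Ph Y0 z))

/-- N: the rays from the top slice to the radius r2. -/
def NEAR : Prop :=
  ∀ j0 : Jd, j0.Is → j0.a ≠ 0 → |j0.a| < j0.M → ∃ C1 ≥ 1, ∃ r0, ∀ r2 ≥ r0, ∃ C2 ≥ 1,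
    ∀ (n : ℕ), ∀ t ≥ 0, ∀ r1 rr, rm j0.M j0.a < r1 → r1 < rr → (j0.t t).Rad rr → ∃ C3 ≥ 1,
      ∃ ε0 > 0, ∀ (P : Pm) g D Y q q' β, P.M = j0.M → P.a = j0.a → P.r1 = r1 → 0 < P.θ →
        r2 + C1 ≤ P.R → n + 12 ≤ P.N → P.ε ≤ ε0 → Ed P g D Y q q' β → ∀ c φ b σ, ∃ R1, ∀ R ≥ R1,
          ∀ w ∈ Ioc 0 (1 / 10), ∀ σe, ∃ T s2 δ O Φ Y0,
            Nout n C1 C2 C3 w s2 r2 rr R T δ σe (j0.t t) P g D Y q' σ (Jt (j0.t t) q c φ b σ R) O Φ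
              Y0 ∧ Exit (n + 4) C1 C2 C3 w s2 r2 (pb (Tq q' σ T) g) Y0

/-- The bottom sphere family. -/
structure Bot (n : ℕ) (E C0 C ε T w : ℝ) (ρ : X3 → ℝ) (η : X3 → Y2) : Prop where
  sl : Sl2 C0 (ε * T) C (Wk w 1) ρ η
  bd : ∀ x ∈ Wk w 1, |ρ x - T| ≤ ε * T ∧ ‖η x‖ ≤ E ∧ JD n (fun x => (ρ x, η x)) x ((C * T) ^ n)

structure Fout (n : ℕ) (C0 C1 C ε T L w s2 sc r2 σ l δ : ℝ) (f : ℝ → ℝ) (g : Tw) (D : Set R4)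
    (Y0 : R4 → E5) (S : X3 → ℝ) (Y : R4 → E5) : Prop where
  eq : ∀ z ∈ RK w (s2 - 1) δ S, z.1 < s2 + 1 → Y z = Y0 z
  pull : Pull (Ph Y) (pb (Ph Y) g) (RK w (s2 - 1) δ S) g D
  inj : InjOn (Ph Y) {z ∈ RK w (s2 - 1) δ S | z.2 ∈ Wk w 0 ∧ s2 ≤ z.1}
  pt : ∀ z ∈ RK w (s2 - 1) δ S, Nul (pb (Ph Y) g) z ∧ (s2 ≤ z.1 →
    r2 - C1 - 1 + 49 / 100 * (z.1 - s2) ≤ (Y z).1 ∧
    ‖(Y z).2.1 - (Y0 (s2, z.2)).2.1‖ ≤ (100 * C1)⁻¹ ∧ (0 < fi l T f (Ph Y z) ↔ z.1 < S z.2) ∧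
    (fi l T f (Ph Y z) = 0 ↔ z.1 = S z.2) ∧
    (z.1 ≤ S z.2 → Rz n C0 C T L sc σ (pb (Ph Y) g) z))
  bt : ∀ x ∈ Wk w 1, Bt n C ε T L S (pb (Ph Y) g) x
  bot : Bot n (C1 + 1) C0 C ε T w (fun x => (Y (S x, x)).1) fun x => (Y (S x, x)).2.1

/-- F: the rays from the radius r2 to the initial slice. -/
def FAR : Prop :=
  ∀ σ ∈ Ioc (1 : ℝ) 2, ∀ δ ∈ Ioc (0 : ℝ) 1, ∀ C1 ≥ 1, ∀ b ≥ 1, ∀ B0 ≥ 1, ∃ w1 > 0, ∃ r0,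
    ∀ r2 ≥ r0, ∀ C2 ≥ 1, ∃ C0 ≥ 1, ∀ (n : ℕ), ∀ B ≥ 1, ∀ C3 ≥ 1, ∃ C ≥ 1, ∀ ε > 0, ∃ e0 > 0,
      ∃ T0, ∀ w ∈ Ioc 0 w1, ∀ e ∈ Ioc 0 e0, ∀ T L s2 sc l f g D Y0, T0 ≤ T → 1 ≤ L → L ^ 2 ≤ T →
        s2 ∈ Icc 0 C3 → |s2 - sc| ≤ C2 → FS 9 (C1 + 2) b B0 e σ δ T L r2 l f g D →
        FS (n + 5) (C1 + 2) b B e σ δ T L r2 l f g D → Exit (n + 4) C1 C2 C3 w s2 r2 g Y0 →
        ∃ δ0 > 0, ∃ S Y, Fout n C0 C1 C ε T L w s2 sc r2 σ l δ0 f g D Y0 S Y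

/-- The point of the initial slice with the radius r and the angle η. -/
def pS (M a : ℝ) (q : Par) (σ : Bool) (r : ℝ) (η : Y2) : R4 :=
  Tq q σ 0 (fz M a q r / q.l, r, η)
def jS (M a : ℝ) (q : Par) (σ : Bool) (R : ℝ) (ρ : X3 → ℝ) (η : X3 → Y2) (z : X3) : X :=
  xs (kap M a (pS M a q σ (ρ (z.1 - R, z.2)) (η (z.1 - R, z.2))))

/-- B: the chart of the window on the initial slice. -/
def BOT : Prop :=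
  ∀ M a E C0, |a| < M → 1 ≤ C0 → ∃ c > 0, ∃ w1 > 0, ∀ w ∈ Ioc 0 w1, ∀ (n : ℕ), ∀ C ≥ 1,
    ∀ c0 > 0, ∃ ε > 0, ∃ (T0 : ℝ) (K : ℕ), ∀ (q : Par) σ T R G ρ η, q.Near M a ε → T0 ≤ T →
      T ^ K ≤ G → Bot n E C0 C ε T w ρ η → Cht n R w G (3 / 4 * T) c σ (jS M a q σ R ρ η) ∧
        P354KX.Mn R w (c0 * (3 / 4 * T)) (jS M a q σ R ρ η)

/-! ### The assembly; P354KX.S1 follows from RAYS, EIK, CVT and BOT -/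

structure Rays (n : ℕ) (E C0 C ε T L w R rr δ sc σe : ℝ) (P : Pm) (g : Tw) (D : Set R4)
    (Y : R4 → R4) (q' : Par) (σ : Bool) (J : X3 → R4) (S : X3 → ℝ) (Φ : R4 → R4)
    (ρ : X3 → ℝ) (η : X3 → Y2) : Prop where
  ray : Ray n C0 C ε T L w δ sc T σe S (pb Φ g)
  pull : Pull Φ (pb Φ g) (RD w δ S) g D ∧ InjOn Φ (RD w δ S)
  pt : ∀ z ∈ RD w δ S, rr < rd (Φ z) ∧ R / 4 ≤ (Φ z).1 + rd (Φ z) ∧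
    (z.1 < S z.2 → 0 < (kap P.M P.a (Φ z)).1) ∧ (z.1 ≤ S z.2 → Φ z ∈ En P.M P.a P.r1 P.θ ∧
      (‖z.2.2‖ ≤ 1 / 2 → 0 < P354E.sg σ * (Φ z).2.2.2)) ∧
    (z.1 = z.2.1 → Φ z = J z.2 ∧ 0 < g (Φ z) (fderiv ℝ Φ z e0) (Y (Φ z))) ∧
    (z.1 = S z.2 → Φ z = pS P.M P.a q' σ (ρ z.2) (η z.2) ∧ (kap P.M P.a (Φ z)).1 = 0) ∧
    (rd (Φ z) ≤ 6 * P.M → ‖Φ z‖ ≤ C * R ∧ JD (n + 1) Φ z C ∧ ∀ v, ‖v‖ ≤ C * ‖fderiv ℝ Φ z v‖)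
  bot : Bot n E C0 C ε T w ρ η

/-- A1: from NEAR, FARC, FAR, CHF, FAT. -/
def RAYS : Prop :=
  ∀ (j0 : Jd) (s δ : ℝ), j0.Is → j0.a ≠ 0 → |j0.a| < j0.M → 1 < s → 0 < δ → ∃ E, ∃ C0 ≥ 1,
    ∃ w1 > 0, ∃ ρ0, ∀ (n : ℕ), ∀ t ≥ 0, ∀ r1 rr, rm j0.M j0.a < r1 → r1 < rr → rr ≤ 2 * j0.M →
      (j0.t t).Rad rr → ∃ C ≥ 1, ∀ ρ ≥ ρ0, ∀ ε > 0, ∃ ε0 > 0, ∀ (P : Pm) g D Y q q' β,
        P.M = j0.M → P.a = j0.a → P.s = s → P.δ = δ → P.r1 = r1 → P.R = ρ → P.θ ∈ Ioc 0 1 →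
        n + 13 ≤ P.N → P.ε ≤ ε0 → Ed P g D Y q q' β → ∀ c φ b σ, ∃ R1, ∀ R ≥ R1,
          ∀ w ∈ Ioc 0 w1, ∃ T ∈ Icc (2 / 5 * R) (4 * R), ∀ L ≥ 1, L ^ 2 ≤ T →
            L ^ (n + 13) ≤ T ^ (min s 2 - 1) → ∃ δ' S Φ ρ' η, Rays n E C0 C ε T L w R rr δ' (2 * t)
              (min s 2) P g D Y q' σ (Jt (j0.t t) q c φ b σ R) S Φ ρ' η

end Vale.Agent.P354SA
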