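import Vale.Agent.P354SA.Hit
import Vale.Agent.P354YC.Jet2

/-!
FLOW: the jets along the far rays.
-/

open scoped ContDiff Nat
open Set Filter Topology MeasureTheory

noncomputable section

namespace Vale.Agent.P354SA

open Vale.Agent.P354n (R4)
open Vale.Agent.P354H (X3)
open Vale.Agent.P354R (Met)
open Vale.Agent.P354XE (Tw pb)
open Vale.Agent.P354YQ (SA JB JD Sol)
open ContinuousLinearMap (fst snd)

variable {σ δ T L s2 r2 C1 b B e η ε l S : ℝ} {vp m nn f : ℝ → ℝ} {g : Tw} {D : Set R4} {s : ℝ}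
  {x : X3} {Y : R4 → E5} {z : R4}

theorem sa_kv (h : SA Y z) (w : R4) : SA (kv Y w) z :=
  (h.and (P354LF.sa_ph h).fderiv).mono fun _ k =>
    (P354LF.xp_cd.contDiffAt.comp _ k.1.snd.snd).clm_apply (k.2.clm_apply contDiffAt_const)

theorem A6_on {u v : ℝ → ℝ} {I : Set ℝ} (h : ContinuousOn u I) (h' : ContinuousOn v I) :
    ContinuousOn (fun t => A6 (u t) (v t)) I := by
  have : ∀ a b : ℝ, A6 a b = A6 0 0 + a • (A6 1 0 - A6 0 0) + b • (A6 0 1 - A6 0 0) :=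
    fun a b => ContinuousLinearMap.ext fun ξ => by simp [A6_ap, A5_ap, Prod.ext_iff]
  refine ContinuousOn.congr ?_ fun t _ => this (u t) (v t)
  exact (continuousOn_const.add (h.smul continuousOn_const)).add (h'.smul continuousOn_const)

theorem sol_ev {E : Type} [NormedAddCommGroup E] [NormedSpace ℝ E] {v : R4 × E → E} {Y : R4 → E}
    (h : Sol e0 v Y z) : ∀ᶠ w in 𝓝 z, Sol e0 v Y w :=
  (h.sm.ev.and h.ode.eventually_nhds).mono fun _ k => ⟨k.1, k.2⟩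

theorem jd_cpt {E : Type} [NormedAddCommGroup E] [NormedSpace ℝ E] (n : ℕ) {G : E → ℝ} {K : Set E}
    (hK : IsCompact K) (h : ∀ a ∈ K, SA G a) : ∃ c, 0 ≤ c ∧ ∀ a ∈ K, JD n G a c :=
  (P354YI.ex_jb n hK fun a j => (h a j).at).imp fun _ k =>
    ⟨k.1, fun a j => ⟨h a j, fun i _ u => k.2 a j i u⟩⟩

/-- The state together with log κ. -/
def Zf (lam : ℝ) (Y : R4 → E5) (z : R4) : E5 × ℝ := (Y z, lam * Real.log (kv Y e1 z))

/-- The scaled field, and the constant in its bound. -/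
def Wj (g : Tw) (α ϖ lam : ℝ) (Y : R4 → E5) (z : R4) (a : X3 × E5 × ℝ) : E5 × ℝ :=
  ϖ⁻¹ • Gf (ϖ / α) lam (A5 α⁻¹ ϖ⁻¹ (Y z)) (Hs g α ϖ (pq Y z)) (a.2.1 - A5 α⁻¹ ϖ⁻¹ (Y z))
def kN (N : ℕ) (B : ℝ) : ℝ := N ! * (4 * 4 ^ N) * ((N + 1)! * B * 2 ^ (N + 1))

/-- A ray from the time s2 to the time S. -/
structure Ry (T s2 r2 C1 l S : ℝ) (f : ℝ → ℝ) (g : Tw) (Y : R4 → E5) (x : X3) : Prop where
  le : S ≤ 3 * T
  sol : ∀ s ∈ Icc s2 S, Sol e0 (cf g) Y (s, x) ∧ 0 ≤ fi l T f (Ph Y (s, x))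
  ini : |(Y (s2, x)).1 - r2| ≤ C1 ∧ ‖(Y (s2, x)).2‖ ≤ C1 ∧ kv Y e1 (s2, x) ∈ Icc C1⁻¹ C1

namespace Cx
variable (c : Cx σ δ T L s2 r2 C1 b B e η ε l vp m nn f g D) (r : Ry T s2 r2 C1 l S f g Y x)
include c r

theorem bd (j : s ∈ Icc s2 S) : Wb r2 s2 vp (Y (s2, x)).2.1 s (Y (s, x)) ∧
    |(Y (s, x)).1 - rb r2 s2 s| ≤ C1 + B * e * (s - s2) + 3 * B * ∫ t in s2..s, nn t ∧
      ‖(Y (s, x)).2.1 - (Y (s2, x)).2.1‖ ≤ B * η ∧ ‖(Y (s, x)).2.2‖ ≤ vp s :=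
  c.apr (γ := fun t => Y (t, x)) (x := x) r.le r.ini.1 r.ini.2.1
    (fun t i => ⟨sol_d (r.sol t i).1, (r.sol t i).2⟩) s j

theorem kap (j : s ∈ Icc s2 S) : kv Y e1 (s, x) ∈ Icc (3 / 2 * C1)⁻¹ (3 / 2 * C1) := by
  have B0 : 0 ≤ B := by linarith [c.par.2.2.1]
  have C0 := c.par.1
  have h0 := (norm_fst_le _).trans r.ini.2.1
  have u : ∀ t ∈ Icc s2 s, t ∈ Icc s2 S ∧ t ∈ Icc s2 (3 * T) := fun t i =>
    ⟨⟨i.1, i.2.trans j.2⟩, i.1, (i.2.trans j.2).trans r.le⟩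
  have k := (P354LF.ray g D Y c.F.met.1 c.F.met.2.1).2 x s2 s (fun t i => by
    rw [uIcc_of_le j.1] at i
    exact ⟨(r.sol t (u t i).1).1, (c.at' (x := x) c.F B0 (u t i).2 (c.bd r (u t i).1).1 h0
      (r.sol t (u t i).1).2).1⟩) e1 rfl
  have n := intervalIntegral.norm_integral_le_of_norm_le (μ := volume)
    (f := fun t => Hd g e1 (pq Y (t, x))) (g := fun t => B * m t) j.1
    (.of_forall fun t i => (c.vel (x := x) (u t (Ioc_subset_Icc_self i)).2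
      (c.bd r (u t (Ioc_subset_Icc_self i)).1).1 h0 (r.sol t (u t (Ioc_subset_Icc_self i)).1).2).2.2.2.1)
    (((c.W.cont.2.1.mono fun t i => (u t i).2).intervalIntegrable_of_Icc j.1).const_mul B)
  rw [intervalIntegral.integral_const_mul] at n
  have := mul_le_mul_of_nonneg_left (c.int_m (u s ⟨j.1, le_rfl⟩).2).1 B0
  have := c.sm1.2.1
  rw [k]
  generalize ∫ t in s2..s, Hd g e1 (pq Y (t, x)) = I at n
  have a := abs_le.1 n
  have e1 := Real.add_one_le_exp I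
  have e2 := Real.add_one_le_exp (-I)
  have e3 : Real.exp I * Real.exp (-I) = 1 := by rw [← Real.exp_add, add_neg_cancel, Real.exp_zero]
  have e4 : Real.exp I ≤ 3 / 2 := by nlinarith [Real.exp_pos I]
  obtain ⟨i1, i2⟩ := r.ini.2.2
  have i0 : 0 < C1⁻¹ := by positivity
  refine ⟨?_, mul_le_mul e4 i2 (by linarith) (by norm_num)⟩
  rw [mul_inv]
  exact mul_le_mul (by norm_num; linarith) i1 i0.le (Real.exp_pos I).le

theorem ge {t : ℝ} (i : t ∈ Icc s2 S) : 1 ≤ vp t ∧ vp t ≤ rb r2 s2 t := by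
  obtain ⟨w1, w2, -⟩ := c.W.pt t ⟨i.1, i.2.trans r.le⟩
  obtain ⟨C0, b0, -⟩ := c.par
  exact ⟨by linarith, by nlinarith⟩

theorem step {N N' : ℕ} {B' lam t : ℝ} (hB : 0 ≤ B') (hN : N + 1 ≤ N')
    (F : FS N' (C1 + 2) b B' e σ δ T L r2 l f g D) (hl : lam ∈ Icc (0 : ℝ) 1) (i : t ∈ Icc s2 S) :
    0 ≤ kN N B' * m t ∧ SA (Zf lam Y) (t, x) ∧
      (∀ v, A6 (rb r2 s2 t) (vp t) (A6 (rb r2 s2 t)⁻¹ (vp t)⁻¹ v) = v) ∧
      (∀ t' ∈ Icc s2 t, ‖(A6 (rb r2 s2 t)⁻¹ (vp t)⁻¹).comp (A6 (rb r2 s2 t') (vp t'))‖ ≤ 1) ∧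
      JD N (Wj g (rb r2 s2 t) (vp t) lam Y (t, x))
        (x, A6 (rb r2 s2 t)⁻¹ (vp t)⁻¹ (Zf lam Y (t, x))) (kN N B' * m t) ∧
      ∀ᶠ y in 𝓝 x, fderiv ℝ (Zf lam Y) (t, y) (1, 0) = A6 (rb r2 s2 t) (vp t)
        (Wj g (rb r2 s2 t) (vp t) lam Y (t, x) (y, A6 (rb r2 s2 t)⁻¹ (vp t)⁻¹ (Zf lam Y (t, y)))) := by
  have u : Icc s2 S ⊆ Icc s2 (3 * T) := Icc_subset_Icc_right r.le
  have η0 := (norm_fst_le _).trans r.ini.2.1
  have k0 : 0 ≤ kN N B' := by unfold kN; positivity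
  have C0 := c.par.1
  obtain ⟨v1, v2⟩ := c.ge r i
  have v0 : 0 < vp t := by linarith
  have r0 : 0 < rb r2 s2 t := by linarith
  obtain ⟨w, -, -, w4⟩ := c.bd r i
  obtain ⟨g1, g2, -, -, g5⟩ := c.geo (u i) w
  obtain ⟨k1, -, k3⟩ := c.at' (x := x) F hB (u i) w η0 (r.sol t i).2
  obtain ⟨-, -, -, m0, n0, n1, -⟩ := c.W.pt t (u i)
  have sol := (r.sol t i).1
  have kp : 0 < kv Y e1 (t, x) := lt_of_lt_of_le (by positivity) (c.kap r i).1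
  have sk := sa_kv sol.sm e1
  have ev := sk.cont.eventually_const_lt kp
  have inv : ∀ v, A5 (rb r2 s2 t) (vp t) (A5 (rb r2 s2 t)⁻¹ (vp t)⁻¹ v) = v := fun v => by
    rw [A5_mul, mul_inv_cancel₀ r0.ne', mul_inv_cancel₀ v0.ne', A5_one]
  refine ⟨mul_nonneg k0 m0, sol.sm.prod ((sk.and ev).mono fun _ a =>
    contDiffAt_const.mul (a.1.log a.2.ne')), fun v => by rw [A6_ap, A6_ap, inv],
    fun t' i' => ?_, ?_, ?_⟩
  · have i2 : t' ∈ Icc s2 S := ⟨i'.1, i'.2.trans i.2⟩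
    have := c.ge r i2
    rw [A6_mul]
    refine A6_le ?_ ?_ le_rfl
    · rw [abs_of_nonneg (by nlinarith [inv_pos.2 r0]), inv_mul_le_one₀ r0]
      unfold rb
      linarith [i'.2]
    · rw [abs_of_nonneg (by nlinarith [inv_pos.2 v0]), inv_mul_le_one₀ v0]
      exact c.W.mono (u i2) (u i) i'.2
  · refine (jd_W v0 v2 (by positivity) hl ?_ (Hs_sc (by linarith) r0.le (by linarith [g5.1])
      (by positivity) (k3.ord hN)) x).mono ?_
    · rw [A5_ap, norm_smul, norm_inv, Real.norm_of_nonneg v0.le, inv_mul_le_iff₀ v0]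
      linarith
    · rw [show (N ! : ℝ) * (4 * 4 ^ N) * ((N + 1)! * (B' * nn t) * 2 ^ (N + 1) / vp t) =
        kN N B' * (nn t / vp t) by rw [kN]; ring]
      exact mul_le_mul_of_nonneg_left ((div_le_iff₀ v0).2 n1) k0
  · have ct : ContinuousAt (fun y : X3 => ((t, y) : R4)) x := by fun_prop
    filter_upwards [ct.eventually (sol_ev sol), ct.eventually ev, ct.eventually
      ((P354LF.sa_pq sol.sm).cont.eventually ((P354LF.ug_open c.F.met.1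
        c.F.met.2.1).eventually_mem k1))] with y y1 y2 y3
    have G := cf_G (w := (t, x)) (y0 := A5 (rb r2 s2 t)⁻¹ (vp t)⁻¹ (Y (t, x)))
      (ξ := A5 (rb r2 s2 t)⁻¹ (vp t)⁻¹ (Y (t, y)) - A5 (rb r2 s2 t)⁻¹ (vp t)⁻¹ (Y (t, x)))
      c.F.met.1 c.F.met.2.1 r0 v0 lam (by rwa [add_sub_cancel, inv])
    rw [add_sub_cancel, inv, inv] at G
    refine Eq.trans ?_ G
    have d := (((P354LF.ray g D Y c.F.met.1 c.F.met.2.1).1 _ y1 y3).2.2 e1 rfl).1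
    have := (y1.sm.diff.hasFDerivAt.prodMk (((sa_kv y1.sm e1).diff.hasFDerivAt.log
      y2.ne').const_mul lam)).fderiv
    rw [show Zf lam Y = fun z => (Y z, lam * Real.log (kv Y e1 z)) from rfl, this]
    refine Prod.ext y1.ode.self_of_nhds ?_
    show lam * ((kv Y e1 (t, y))⁻¹ * dv e0 (kv Y e1) (t, y)) = lam * Hd g e1 (pq Y (t, y))
    rw [d]
    field_simp

end Cx

theorem jets (N : ℕ) (B' C : ℝ) (hB : 0 ≤ B') (hC : 0 ≤ C) : ∃ K ≥ 1,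
    ∀ {σ δ T L s2 r2 C1 b B e η ε l S : ℝ} {vp m nn f : ℝ → ℝ} {g : Tw} {D : Set R4} {x : X3}
      {Y : R4 → E5} {N' : ℕ} {lam : ℝ}, Cx σ δ T L s2 r2 C1 b B e η ε l vp m nn f g D →
      Ry T s2 r2 C1 l S f g Y x → N + 1 ≤ N' → FS N' (C1 + 2) b B' e σ δ T L r2 l f g D →
      lam ∈ Icc (0 : ℝ) 1 → JD N (fun y => Zf lam Y (s2, y)) x C → ∀ s ∈ Icc s2 S,
        JD N (fun y => A6 (rb r2 s2 s)⁻¹ (vp s)⁻¹ (Zf lam Y (s, y))) x K ∧
        JD N (fun y => A6 (rb r2 s2 s)⁻¹ (vp s)⁻¹ (Zf lam Y (s, y) - Zf lam Y (s2, y))) x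
          (K * η) := by
  obtain ⟨k, hk⟩ : ∃ k : ℝ, k = kN N B' := ⟨_, rfl⟩
  have k0 : 0 ≤ k := by rw [hk, kN]; positivity
  obtain ⟨K, K1, H⟩ := P354YC.jet N k C
  refine ⟨K * (k + 1), by nlinarith, ?_⟩
  intro σ δ T L s2 r2 C1 b B e η ε l S vp m nn f g D x Y N' lam c r hN F hl h0 s j
  obtain ⟨a1, a2, a3, a4, a5, a6, a7⟩ := c.sm1
  obtain ⟨C0, b0, B0, -⟩ := c.par
  have u : Icc s2 S ⊆ Icc s2 (3 * T) := Icc_subset_Icc_right r.le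
  have η1 : η ≤ 1 := by nlinarith
  have η0 := (norm_fst_le _).trans r.ini.2.1
  have im : ∀ t ∈ Icc s2 S, ∫ t in s2..t, k * m t ≤ k * η := fun t i => by
    rw [intervalIntegral.integral_const_mul]
    exact mul_le_mul_of_nonneg_left (c.int_m (u i)).1 k0
  have ge := fun t (i : t ∈ Icc s2 S) => c.ge r i
  have cr : Continuous (rb r2 s2) := by unfold rb; fun_prop
  have c1 : ContinuousOn (fun t => k * m t) (Icc s2 S) :=
    continuousOn_const.mul (c.W.cont.2.1.mono u)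
  have c2 : ContinuousOn (fun t => A6 (rb r2 s2 t)⁻¹ (vp t)⁻¹) (Icc s2 S) :=
    A6_on (cr.continuousOn.inv₀ fun t i => by linarith [ge t i])
      ((c.W.cont.1.mono u).inv₀ fun t i => by linarith [ge t i])
  have n : ‖A6 (rb r2 s2 s2)⁻¹ (vp s2)⁻¹‖ ≤ 1 := by
    have := ge s2 ⟨le_rfl, j.1.trans j.2⟩
    refine A6_le ?_ ?_ le_rfl
    · rw [abs_of_nonneg (inv_nonneg.2 (by linarith))]
      exact inv_le_one_of_one_le₀ (by linarith)
    · rw [abs_of_nonneg (inv_nonneg.2 (by linarith))]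
      exact inv_le_one_of_one_le₀ this.1
  have i0 : JD N (fun y => A6 (rb r2 s2 s2)⁻¹ (vp s2)⁻¹ (Zf lam Y (s2, y))) x C :=
    (h0.clm _).mono (mul_le_of_le_one_left hC n)
  subst hk
  have key := H X3 (E5 × ℝ) (Zf lam Y) (fun t => A6 (rb r2 s2 t) (vp t))
    (fun t => A6 (rb r2 s2 t)⁻¹ (vp t)⁻¹) (fun t => Wj g (rb r2 s2 t) (vp t) lam Y (t, x))
    (fun t => kN N B' * m t) s2 S x c1 c2
    ((im S ⟨j.1.trans j.2, le_rfl⟩).trans (mul_le_of_le_one_right k0 η1))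
    (fun t i => c.step r hB hN F hl i) i0 s j
  refine ⟨key.1.mono (by nlinarith), key.2.mono ?_⟩
  nlinarith [mul_le_mul_of_nonneg_left (im s j) (show 0 ≤ K by linarith), mul_nonneg a1
    (show 0 ≤ K by linarith)]

end Vale.Agent.P354SA
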