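import Vale.Agent.P354SA.Flow

/-!
FLOW from the weights.
-/

open scoped ContDiff Nat
open Set Filter Topology MeasureTheory

noncomputable section

namespace Vale.Agent.P354SA

open Vale.Agent.P354n (R4)
open Vale.Agent.P354H (X3)
open Vale.Agent.P354R (Met)
open Vale.Agent.P354XE (Tw pb)
open Vale.Agent.P354YQ (SA JB JD Sol)
open ContinuousLinearMap (fst snd)

theorem n_fst {E F : Type} [NormedAddCommGroup E] [NormedSpace ℝ E] [NormedAddCommGroup F]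
    [NormedSpace ℝ F] : ‖fst ℝ E F‖ ≤ 1 ∧ ‖snd ℝ E F‖ ≤ 1 :=
  ⟨ContinuousLinearMap.norm_fst_le .., ContinuousLinearMap.norm_snd_le ..⟩

theorem jd_pr {X E F : Type} [NormedAddCommGroup X] [NormedSpace ℝ X] [NormedAddCommGroup E]
    [NormedSpace ℝ E] [NormedAddCommGroup F] [NormedSpace ℝ F] {n : ℕ} {f : X → E × F} {x : X}
    {c : ℝ} (h : JD n f x c) (hc : 0 ≤ c) :
    JD n (fun y => (f y).1) x c ∧ JD n (fun y => (f y).2) x c :=
  ⟨(h.clm (fst ℝ E F)).mono (mul_le_of_le_one_left hc n_fst.1),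
    (h.clm (snd ℝ E F)).mono (mul_le_of_le_one_left hc n_fst.2)⟩

theorem kv_sl {Y : R4 → E5} {s : ℝ} {x : X3} (h : SA Y (s, x)) : kv Y e1 (s, x) =
    (fderiv ℝ (fun y => Y (s, y)) x (1, 0, 0)).1 -
      dot (Y (s, x)).2.2 (fderiv ℝ (fun y => Y (s, y)) x (1, 0, 0)).2.1 := by
  have := (h.diff.hasFDerivAt.comp x (hasFDerivAt_prodMk_right s x)).fderiv
  rw [kv, P354LF.xp_ap, P354LF.ph_fd h, show (fun y => Y (s, y)) = Y ∘ Prod.mk s from rfl, this]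
  rfl

theorem ini_jets (k : ℕ) {C1 C : ℝ} (h1 : 1 ≤ C1) (hC : 1 ≤ C) : ∃ C' ≥ 0,
    ∀ (Y : R4 → E5) s x, SA Y (s, x) → JD (k + 1) (fun y => Y (s, y)) x C →
      ‖(Y (s, x)).2‖ ≤ C1 → kv Y e1 (s, x) ∈ Icc C1⁻¹ C1 → JD k (fun y => Zf 1 Y (s, y)) x C' := by
  let κ : Y2 × E5 → ℝ := fun a => a.2.1 - dot a.1 a.2.2.1
  have sκ : ContDiff ℝ ∞ κ := by unfold κ dot; fun_prop
  obtain ⟨c, c0, H⟩ := jd_cpt k (G := fun a => Real.log (κ a))
    (K := Metric.closedBall 0 (C1 + 2 ^ k * C) ∩ κ ⁻¹' Icc C1⁻¹ C1)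
    ((isCompact_closedBall _ _).inter_right (isClosed_Icc.preimage sκ.continuous)) fun a j =>
      (sκ.continuous.continuousAt.eventually_const_lt ((inv_pos.2 (by linarith)).trans_le
        j.2.1)).mono fun _ i => sκ.contDiffAt.log i.ne'
  have p1 : (1 : ℝ) ≤ 2 ^ k := one_le_pow₀ one_le_two
  refine ⟨C + k ! * c * (2 ^ k * C) ^ k, by positivity, fun Y s x sY h hp hκ => ?_⟩
  have u := (h.fderiv.app (JB.const ((1, 0, 0) : X3))).mono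
    (show _ ≤ 2 ^ k * C by simp [Prod.norm_def])
  have p := ((jd_pr (jd_pr (h.ord k.le_succ) (by linarith)).2 (by linarith)).2).mono
    (show C ≤ 2 ^ k * C by nlinarith)
  have G := JD.comp (H _ ⟨mem_closedBall_zero_iff.2 (norm_prod_le_iff.2
    ⟨((norm_snd_le _).trans hp).trans (by nlinarith), u.zero.trans (by linarith)⟩),
      (kv_sl sY ▸ hκ :)⟩) (p.prod u.jd) (by nlinarith) c0
  have ct : ContinuousAt (fun y : X3 => ((s, y) : R4)) x := by fun_prop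
  refine ((h.ord k.le_succ).mono (le_add_of_nonneg_right (by positivity))).prod
    ((G.congr ((ct.eventually sY.ev).mono fun y j => ?_)).mono (by linarith))
  simp only [one_mul, kv_sl j, κ]

theorem nz_jets (k : ℕ) {C1 K : ℝ} (h1 : 1 ≤ C1) (hK : 1 ≤ K) : ∃ K' ≥ 1,
    ∀ (Y : R4 → E5) (s α ϖ : ℝ) x, SA Y (s, x) → 0 < α → 0 < ϖ → α ≤ 2 * (Y (s, x)).1 →
      ϖ ≤ (Y (s, x)).1 → kv Y e1 (s, x) ∈ Icc (3 / 2 * C1)⁻¹ (3 / 2 * C1) →
      JD k (fun y => A6 α⁻¹ ϖ⁻¹ (Zf 1 Y (s, y))) x K →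
      JD k (fun y => nz Y (s, x) (s, y)) x K' := by
  obtain ⟨c, c0, H⟩ := jd_cpt k (G := Real.exp) (K := Icc (-(3 / 2 * C1)) (3 / 2 * C1))
    isCompact_Icc fun a _ => SA.of Real.contDiff_exp
  refine ⟨2 * K + k ! * c * K ^ k, by
    have : 0 ≤ k ! * c * K ^ k := by positivity
    linarith, fun Y s α ϖ x sY a0 v0 a1 v1 hκ h => ?_⟩
  have r0 := v0.trans_le v1
  have κ0 : 0 < kv Y e1 (s, x) := lt_of_lt_of_le (by positivity) hκ.1
  obtain ⟨j1, j2⟩ := jd_pr h (by linarith)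
  have a := (j1.clm (A5 (α / (Y (s, x)).1) (ϖ / (Y (s, x)).1))).mono (mul_le_mul_of_nonneg_right
    (A5_le (c := 2) (by rwa [abs_of_nonneg (by positivity), div_le_iff₀ r0]) (by
      rw [abs_of_nonneg (by positivity), div_le_iff₀ r0]
      linarith) one_le_two) (by linarith))
  have b := JD.comp (H _ (by
    have e1 := Real.log_le_sub_one_of_pos κ0
    have e2 := Real.log_le_sub_one_of_pos (inv_pos.2 κ0)
    have e3 := inv_le_comm₀ κ0 (show 0 < 3 / 2 * C1 by linarith) |>.2 hκ.1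
    rw [Real.log_inv] at e2
    show 1 * Real.log _ ∈ _
    exact ⟨by linarith, by linarith [hκ.2]⟩)) j2 hK c0
  have ct : ContinuousAt (fun y : X3 => ((s, y) : R4)) x := by fun_prop
  refine ((a.mono (le_add_of_nonneg_right (by positivity))).prod
    (b.mono (le_add_of_nonneg_left (by linarith)))).congr ((ct.eventually
      ((sa_kv sY e1).cont.eventually_const_lt κ0)).mono fun y j => ?_)
  simp only [nz, Zf, A6_ap, A5_mul, one_mul, Real.exp_log j]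
  rw [show α / (Y (s, x)).1 * α⁻¹ = (Y (s, x)).1⁻¹ by field_simp,
    show ϖ / (Y (s, x)).1 * ϖ⁻¹ = (Y (s, x)).1⁻¹ by field_simp, A5_ap, div_eq_inv_mul]

variable {σ δ T L s2 r2 C1 b B e η ε l S : ℝ} {vp m nn f : ℝ → ℝ} {g : Tw} {D : Set R4} {s : ℝ}
  {x : X3} {Y : R4 → E5} {z : R4}

theorem Cx.strip (c : Cx σ δ T L s2 r2 C1 b B e η ε l vp m nn f g D) {n : ℕ} {C2 C3 w : ℝ}
    (E : Exit n C1 C2 C3 w s2 r2 g Y) (h : z.2 ∈ Wk w 2) (h' : |z.1 - s2| < 1) :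
    Sol e0 (cf g) Y z ∧ pq Y z ∈ Ug g D := by
  obtain ⟨a1, a2, a3, a4, a5, a6, a7⟩ := c.sm1
  obtain ⟨C0, b0, B0, e0, s0⟩ := c.par
  have mem : ∀ z : R4, z.2 ∈ Wk w 2 → |z.1 - s2| < 1 → pq Y z ∈ Ug g D := fun z h h' => by
    obtain ⟨-, -, -, -, k1, k2, -⟩ := E.strip z h h'
    have k := abs_le.1 k1
    have r : r2 / 2 ≤ (Y z).1 := by linarith
    obtain ⟨w1, w2, -⟩ := c.W.pt s2 ⟨le_rfl, by linarith⟩
    refine (c.F.pt (pq Y z) r (((norm_fst_le _).trans k2).trans (by linarith)) (c.fi_pos (z := (pq Y z).1) r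
      (show z.1 ≤ T by linarith [abs_lt.1 h'])).le (((norm_snd_le _).trans k2).trans ?_)).1
    rw [rb, sub_self, zero_div, add_zero] at w2
    rw [le_div_iff₀ (by linarith)]
    show C1 * b ≤ (Y z).1
    nlinarith
  refine ⟨P354LF.char g D Y z c.F.met.1 c.F.met.2.1 (E.strip z h h').1 ?_, mem z h h'⟩
  filter_upwards [continuous_snd.continuousAt.eventually ((wk_open w 2).eventually_mem h),
    ContinuousAt.eventually_lt (f := fun z : R4 => |z.1 - s2|) (by fun_prop) continuousAt_const h']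
    with y y1 y2
  obtain ⟨-, k1, k2, k3, -, -, k4⟩ := E.strip y y1 y2
  exact ⟨mem y y1 y2, k1, k2, k3, fun v j => norm_le_zero_iff.1 (by simpa [j] using k4 v)⟩

theorem Cx.pz (c : Cx σ δ T L s2 r2 C1 b B e η ε l vp m nn f g D) (r : Ry T s2 r2 C1 l S f g Y x)
    (i : s ∈ Icc s2 S) {n : ℕ} {K0 K : ℝ} (eε : 6 * B * e ≤ ε)
    (h1 : ‖fderiv ℝ (fun y => (Y (s, y)).2.1 - (Y (s2, y)).2.1) x‖ ≤ (16 * C1)⁻¹)
    (h2 : JD 4 (fun y => nz Y (s, x) (s, y)) x K0)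
    (h3 : JD (n + 1) (fun y => nz Y (s, x) (s, y)) x K) :
    Pz0 n C1 K0 K (ε * T) b T s2 r2 g Y (s, x) ∧ |(Y (s, x)).1 - rb r2 s2 s| ≤ C1 + ε * T := by
  obtain ⟨a1, a2, a3, a4, a5, a6, a7⟩ := c.sm1
  obtain ⟨C0, b0, B0, e0, s0⟩ := c.par
  have u : s ∈ Icc s2 (3 * T) := ⟨i.1, i.2.trans r.le⟩
  obtain ⟨w0, w1, w2, w3⟩ := c.bd r i
  obtain ⟨g1, -, -, g4, -⟩ := c.geo u w0
  obtain ⟨-, -, p3, p4, p5, -, -, p7, p8⟩ := c.W.pt s u
  obtain ⟨v1, v2, -, -, v3⟩ := c.vel (x := x) u w0 ((norm_fst_le _).trans r.ini.2.1) (r.sol s i).2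
  have d := sub_nonneg.2 i.1
  have B1 : 0 ≤ B := by linarith
  have T0 : 0 ≤ T := by linarith
  have ι : (1200 * C1 ^ 2)⁻¹ ≤ (200 * C1)⁻¹ := inv_anti₀ (by linarith) (by nlinarith)
  refine ⟨⟨?_, w2.trans (c.sm.trans ι), ⟨w3.trans p3, g4⟩, c.kap r i, h1, ⟨h2, h3⟩,
    fun t => ⟨?_, ?_⟩⟩, ?_⟩
  · refine w1.trans ?_
    show _ ≤ C1 + (s - s2) / 200
    linarith [mul_le_mul_of_nonneg_left p7 B1, mul_le_mul_of_nonneg_right a2 d,
      mul_le_mul_of_nonneg_right a3 d]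
  · exact v1.trans (by linarith [mul_le_mul_of_nonneg_left (p8 t).1 B1])
  · have q := mul_le_mul v2 (add_le_add_right w3 1) (by positivity) (by positivity)
    rw [mul_add (_ / _), mul_one, div_mul_cancel₀ _ g1.ne'] at q
    refine q.trans ?_
    rw [show (600 * C1 ^ 2)⁻¹ = 2 * (1200 * C1 ^ 2)⁻¹ by field_simp; norm_num]
    linarith [mul_le_mul_of_nonneg_left (p8 t).1 B1, mul_le_mul_of_nonneg_left (p8 t).2 B1, c.sm]
  · refine w1.trans ?_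
    have q := mul_le_mul_of_nonneg_left ((c.int_m u).2.trans (mul_le_mul_of_nonneg_left p3 a1)) B1
    have k : B * e * (s - s2) ≤ B * e * (3 * T) :=
      mul_le_mul_of_nonneg_left (by linarith [u.2]) (mul_nonneg B1 e0.le)
    have ε0 : 0 ≤ ε * T := by linarith
    linarith [mul_le_mul_of_nonneg_right eε T0, mul_le_mul_of_nonneg_right a2 ε0]

theorem flow (hW : WTF) : FLOW := by
  intro σ hσ δ hδ C1 h1 b hb B0 hB0
  obtain ⟨K1, k1, J1⟩ := jets 1 B0 C1 (by linarith) (by linarith)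
  obtain ⟨η, η0, η1, η2⟩ : ∃ η > 0, B0 * η ≤ (1200 * C1 ^ 2)⁻¹ ∧ K1 * η ≤ (16 * C1)⁻¹ := by
    refine ⟨min ((1200 * C1 ^ 2)⁻¹ / B0) ((16 * C1)⁻¹ / K1), by positivity, ?_, ?_⟩
    · exact (le_div_iff₀' (by linarith)).1 (min_le_left _ _)
    · exact (le_div_iff₀' (by linarith)).1 (min_le_right _ _)
  obtain ⟨r0, hW⟩ := hW σ hσ δ hδ C1 h1 b hb 1 le_rfl η η0
  refine ⟨max r0 (2 * (100 * B0) ^ 2), fun r2 hr C2 h2 => ?_⟩
  obtain ⟨c2, c20, I2⟩ := ini_jets 4 h1 h2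
  obtain ⟨K2, k2, J2⟩ := jets 4 B0 c2 (by linarith) c20
  obtain ⟨K0, k0, N0⟩ := nz_jets 4 h1 k2
  refine ⟨K0, k0, fun n B hB C3 h3 => ?_⟩
  obtain ⟨c3, c30, I3⟩ := ini_jets (n + 1) h1 h3
  obtain ⟨K3, k3, J3⟩ := jets (n + 1) B c3 (by linarith) c30
  obtain ⟨K, k, N⟩ := nz_jets (n + 1) h1 k3
  refine ⟨K, k, fun ε hε => ?_⟩
  obtain ⟨e0, e00, T0, hW⟩ := hW r2 ((le_max_left _ _).trans hr) C3 ε hε
  refine ⟨min e0 (ε / (6 * B0)), by positivity, max T0 (20 * (r2 + C1 + C3 + 1)),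
    fun w e he T L s2 l f g D Y0 hT hs F F' E => ?_⟩
  obtain ⟨vp, m, nn, W⟩ := hW e ⟨he.1, he.2.trans (min_le_left _ _)⟩ T
    ((le_max_left _ _).trans hT) s2 hs
  have c : Cx σ δ T L s2 r2 C1 b B0 e η ε l vp m nn f g D := ⟨W, F, ⟨h1, hb, hB0, he.1, hs.1⟩, η1,
    (le_max_right _ _).trans hr, by linarith [(le_max_right _ _).trans hT, hs.2]⟩
  have eε : 6 * B0 * e ≤ ε := (le_div_iff₀' (by linarith)).1 (he.2.trans (min_le_right _ _))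
  obtain ⟨-, -, -, -, oU, sU, -⟩ := P354LF.hju g D F.met.1 F.met.2.1
  obtain ⟨Ω, Y, o, m1, m2, m3⟩ := max_s oU sU s2 fun x => Y0 (s2, x)
  have eq : ∀ z : R4, z.2 ∈ Wk w 2 → |z.1 - s2| < 1 → z ∈ Ω ∧ Y z = Y0 z := fun z j j' =>
    m2 z.1 z.2 Y0 (E.jets _ j).1.sm rfl fun t i => c.strip E j
      ((abs_sub_left_of_mem_uIcc i).trans_lt j')
  have hit : ∀ x ∈ Wk w 2, ∃ S ∈ Icc s2 (3 * T), (S, x) ∈ Ω ∧ fi l T f (Ph Y (S, x)) = 0 ∧
      (∀ s ∈ Ico s2 S, 0 < fi l T f (Ph Y (s, x))) ∧ ∀ s ∈ Icc s2 S,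
        Pz0 n C1 K0 K (ε * T) b T s2 r2 g Y (s, x) ∧
          |(Y (s, x)).1 - rb r2 s2 s| ≤ C1 + ε * T := fun x j => by
    obtain ⟨q1, q2⟩ := eq (s2, x) j (by simp)
    obtain ⟨sa, -, -, -, i1, i2, -⟩ := E.strip (s2, x) j (by simp)
    obtain ⟨j1, j2, j3, j4, -⟩ := E.jets x j
    have ev : Y =ᶠ[𝓝 (s2, x)] Y0 := by
      filter_upwards [continuous_snd.continuousAt.eventually ((wk_open w 2).eventually_mem j),
        ContinuousAt.eventually_lt (f := fun z : R4 => |z.1 - s2|) (by fun_prop)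
          continuousAt_const (show |s2 - s2| < 1 by simp)] with y y1 y2 using (eq y y1 y2).2
    have ev' : (fun y => Y (s2, y)) =ᶠ[𝓝 x] fun y => Y0 (s2, y) :=
      (show ContinuousAt (fun y : X3 => ((s2, y) : R4)) x by fun_prop).eventually ev
    have κ0 : kv Y e1 (s2, x) = kv Y0 e1 (s2, x) := by
      rw [kv_sl sa, kv_sl (sa.congr ev), ev'.fderiv_eq, q2]
    rw [← q2] at i1 i2
    rw [← κ0] at j4
    obtain ⟨S, s1, s2', s3, s4⟩ := c.hit o (fun z i => ⟨(m1 z i).1, (m1 z i).2.2.2⟩) q1 i1 i2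
      fun s i K u v y => m3 s x i j1.sm K u v (q2 ▸ y)
    have r : Ry T s2 r2 C1 l S f g Y x := ⟨s1.2, fun s i => ⟨(m1 _ ((m1 _ s2').2.2.2 s
      (Icc_subset_uIcc i))).1, i.2.eq_or_lt.elim (fun e => e ▸ s3.ge) fun e => (s4 s ⟨i.1, e⟩).le⟩,
      i1, i2, j4⟩
    refine ⟨S, s1, s2', s3, s4, fun s i => ?_⟩
    have u : s ∈ Icc s2 (3 * T) := ⟨i.1, i.2.trans s1.2⟩
    obtain ⟨g1, g2, g3, -, g5⟩ := c.geo u (c.bd r i).1
    have sY := (r.sol s2 ⟨le_rfl, s1.1⟩).1.sm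
    have q0 : 0 < rb r2 s2 s := by linarith only [g5.2, g1, g2]
    have q1 : rb r2 s2 s ≤ 2 * (Y (s, x)).1 := by linarith only [g5.1]
    have q2 : vp s ≤ (Y (s, x)).1 := by linarith only [g1, g2]
    refine c.pz r i eε ?_ (N0 Y s _ _ x (r.sol s i).1.sm q0 g1 q1 q2 (c.kap r i) (J2 c r
      (by norm_num) F ⟨zero_le_one, le_rfl⟩ (I2 Y s2 x sY ((j2.congr ev').ord (by norm_num)) i2 j4)
      s i).1) (N Y s _ _ x (r.sol s i).1.sm q0 g1 q1 q2 (c.kap r i) (J3 c r (by omega) F'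
        ⟨zero_le_one, le_rfl⟩ (I3 Y s2 x sY ((j3.congr ev').ord (by omega)) i2 j4) s i).1)
    have := (J1 c r (by norm_num) F ⟨le_rfl, zero_le_one⟩ (((j1.congr ev').prod
      ((JD.const (0 : ℝ)).mono (zero_le_one.trans h1))).congr
        (.of_forall fun y => by simp [Zf])) s i).2
    have K0 : 0 ≤ K1 * η := mul_nonneg (zero_le_one.trans k1) η0.le
    exact (jd_pr (jd_pr (jd_pr this K0).1 K0).2 K0).1.fderiv.zero.trans η2
  choose! S hS using hit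
  exact ⟨Ω ∩ Prod.snd ⁻¹' Wk w 2, Y, S, o.inter ((wk_open w 2).preimage continuous_snd),
    fun z j => ⟨(m1 z j.1).1, (m1 z j.1).2.1, j.2, fun s i => ⟨(m1 z j.1).2.2.2 s i, j.2⟩⟩,
    fun z j j' => ⟨⟨(eq z j j').1, j⟩, (eq z j j').2⟩,
    fun x j => ⟨(hS x j).1, ⟨(hS x j).2.1, j⟩, (hS x j).2.2⟩⟩

end Vale.Agent.P354SA
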