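import Vale.Agent.P354SA.Apr

/-!
The far rays reach the initial slice.
-/

open scoped ContDiff Nat
open Set Filter Topology MeasureTheory

noncomputable section

namespace Vale.Agent.P354SA

open Vale.Agent.P354n (R4)
open Vale.Agent.P354H (X3)
open Vale.Agent.P354R (Met)
open Vale.Agent.P354XE (Tw)
open Vale.Agent.P354YQ (SA JB JD Sol)

variable {σ δ T L s2 r2 C1 b B e η ε l : ℝ} {vp m nn f : ℝ → ℝ} {g : Tw} {D : Set R4} {s : ℝ}
  {x : X3} {y : E5} {η0 : Y2}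

theorem wk_open (w k : ℝ) : IsOpen (Wk w k) :=
  (isOpen_Ioo.preimage continuous_fst).inter (isOpen_lt continuous_snd.norm continuous_const)

namespace Cx
variable (c : Cx σ δ T L s2 r2 C1 b B e η ε l vp m nn f g D)
include c

theorem f_ct {r : ℝ} (h : r2 / 2 ≤ r) : ContinuousAt f r := by
  have r0 : r ≠ 0 := by linarith [c.sm1.2.2.2.2.1]
  have k := (c.F.hf r h).1.sm.cont
  have : ContinuousAt (fun t : ℝ => (t - r) / r) r := by fun_prop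
  refine (ContinuousAt.comp_of_eq k this (by simp)).congr (.of_forall fun t => ?_)
  simp only [Function.comp]
  congr 1
  field_simp
  ring

theorem fi_pos {z : R4} (h : r2 / 2 ≤ z.2.1) (k : z.1 ≤ T) : 0 < fi l T f z := by
  have := abs_le.1 (c.f_le h)
  have := abs_le.1 c.F.hl
  have := c.sm1
  unfold fi
  nlinarith

theorem trap (h0 : ‖η0‖ ≤ C1) (h : s ≤ 3 * T) (x : X3) : ∃ K : Set (R4 × E5), IsCompact K ∧
    (∀ a ∈ K, ph a.1 a.2 ∈ Ug g D) ∧ ∀ t ∈ Icc s2 s, ∀ y, Wb r2 s2 vp η0 t y →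
      0 ≤ fi l T f (t, y.1, y.2.1) → ((t, x), y) ∈ K := by
  have u : Icc s2 s ⊆ Icc s2 (3 * T) := Icc_subset_Icc_right h
  let K' : Set (R4 × E5) := (Icc s2 s ×ˢ {x}) ×ˢ (Icc (r2 / 2) (2 * rb r2 s2 s) ×ˢ
    Metric.closedBall 0 (C1 + 1 + 2 * rb r2 s2 s))
  have cK : IsCompact K' := (isCompact_Icc.prod isCompact_singleton).prod
    (isCompact_Icc.prod (isCompact_closedBall _ _))
  let h : R4 × E5 → ℝ × ℝ × ℝ × ℝ := fun a => (|a.2.1 - rb r2 s2 a.1.1| - rb r2 s2 a.1.1 / 2,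
    ‖a.2.2.1 - η0‖ - 1, ‖a.2.2.2‖ - 2 * vp a.1.1, -(l * (T - a.1.1) + f a.2.1))
  have cr : Continuous (rb r2 s2) := by unfold rb; fun_prop
  have c1 : ContinuousOn (fun a : R4 × E5 => vp a.1.1) K' :=
    c.W.cont.1.comp (by fun_prop) fun a j => u j.1.1
  have c2 : ContinuousOn (fun a : R4 × E5 => f a.2.1) K' := fun a j =>
    (ContinuousAt.comp (f := fun a : R4 × E5 => a.2.1) (c.f_ct j.2.1.1)
      (by fun_prop)).continuousWithinAt
  have c3 : Continuous fun a : R4 × E5 => rb r2 s2 a.1.1 := cr.comp (by fun_prop)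
  have ch : ContinuousOn h K' := (((continuous_snd.fst.sub c3).abs.sub
    (c3.div_const 2)).continuousOn).prodMk ((Continuous.continuousOn (by fun_prop)).prodMk
      (((Continuous.continuousOn (by fun_prop)).sub (c1.const_smul (2 : ℝ))).prodMk
        ((Continuous.continuousOn (by fun_prop)).add c2).neg))
  have iff : ∀ a, h a ∈ Iic 0 ↔ Wb r2 s2 vp η0 a.1.1 a.2 ∧ 0 ≤ fi l T f (a.1.1, a.2.1, a.2.2.1) :=
    fun a => by
      simp only [h, mem_Iic, Prod.le_def, Wb, fi, and_assoc, Prod.fst_zero, Prod.snd_zero,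
        sub_nonpos, neg_nonpos]
  refine ⟨K' ∩ h ⁻¹' Iic 0, cK.of_isClosed_subset
    (ch.preimage_isClosed_of_isClosed cK.isClosed isClosed_Iic) inter_subset_left,
    fun a j => ?_, fun t j y w p => ⟨⟨⟨j, rfl⟩, ?_⟩, (iff _).2 ⟨w, p⟩⟩⟩
  · obtain ⟨w, p⟩ := (iff a).1 j.2
    exact (c.at' (x := a.1.2) c.F (by linarith [c.par.2.2.1]) (u j.1.1.1) w h0 p).1
  · obtain ⟨g1, g2, g3, -, g5⟩ := c.geo (u j) w
    have r : rb r2 s2 t ≤ rb r2 s2 s := by unfold rb; linarith [j.2]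
    have := norm_add_le (y.2.1 - η0) η0
    rw [sub_add_cancel] at this
    refine ⟨⟨g3, by linarith [g5.2]⟩, mem_closedBall_zero_iff.2 (norm_prod_le_iff.2 ⟨?_, ?_⟩)⟩
    · linarith [w.2.1, g5.2]
    · linarith [w.2.2, g5.2, c.par.1]

/-- The ray reaches the initial slice. -/
theorem hit {W : Set R4} {Φ : R4 → E5} (o : IsOpen W)
    (h1 : ∀ z ∈ W, Sol e0 (cf g) Φ z ∧ ∀ s ∈ uIcc s2 z.1, (s, z.2) ∈ W) (h0 : (s2, x) ∈ W)
    (i1 : |(Φ (s2, x)).1 - r2| ≤ C1) (i2 : ‖(Φ (s2, x)).2‖ ≤ C1)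
    (h2 : ∀ s, s2 ≤ s → ∀ K : Set (R4 × E5), (∀ a ∈ K, ph a.1 a.2 ∈ Ug g D) → IsCompact K →
      ((s2, x), Φ (s2, x)) ∈ K → (∀ t ∈ Ioo s2 s, (t, x) ∈ W → ((t, x), Φ (t, x)) ∈ K) →
      (s, x) ∈ W) :
    ∃ S ∈ Icc s2 (3 * T), (S, x) ∈ W ∧ fi l T f (Ph Φ (S, x)) = 0 ∧
      ∀ s ∈ Ico s2 S, 0 < fi l T f (Ph Φ (s, x)) := by
  obtain ⟨a1, a2, a3, a4, a5, a6, a7⟩ := c.sm1
  have s0 := c.par.2.2.2.2
  have C0 := c.par.1
  let A := {s ∈ Icc s2 (3 * T) | (s, x) ∈ W ∧ ∀ t ∈ Icc s2 s, 0 < fi l T f (Ph Φ (t, x))}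
  have r0 : r2 / 2 ≤ (Φ (s2, x)).1 := by linarith [abs_le.1 i1]
  have m0 : s2 ∈ A := ⟨⟨le_rfl, by linarith⟩, h0, fun t j => by
    rw [le_antisymm j.2 j.1]
    exact c.fi_pos r0 (show s2 ≤ T by linarith)⟩
  have bd : BddAbove A := ⟨3 * T, fun s j => j.1.2⟩
  have hS : sSup A ∈ Icc s2 (3 * T) := ⟨le_csSup bd m0, csSup_le ⟨_, m0⟩ fun s j => j.1.2⟩
  have lt : ∀ t ∈ Ico s2 (sSup A), t ∈ A := fun t j => by
    obtain ⟨s, k, k'⟩ := exists_lt_of_lt_csSup ⟨_, m0⟩ j.2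
    exact ⟨⟨j.1, j.2.le.trans hS.2⟩, (h1 _ k.2.1).2 t (mem_uIcc_of_le j.1 k'.le),
      fun u i => k.2.2 u ⟨i.1, i.2.trans k'.le⟩⟩
  have ap := fun s (h : s ≤ 3 * T) (k : (s, x) ∈ W)
      (p : ∀ t ∈ Icc s2 s, 0 ≤ fi l T f (Ph Φ (t, x))) =>
    c.apr (γ := fun t => Φ (t, x)) (x := x) h i1 i2 fun t j =>
      ⟨sol_d (h1 _ ((h1 _ k).2 t (Icc_subset_uIcc j))).1, p t j⟩
  have wb : ∀ t ∈ A, Wb r2 s2 vp (Φ (s2, x)).2.1 t (Φ (t, x)) := fun t j =>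
    (ap t j.1.2 j.2.1 (fun u i => (j.2.2 u i).le) t ⟨j.1.1, le_rfl⟩).1
  obtain ⟨K, k1, k2, k3⟩ := c.trap ((norm_fst_le _).trans i2) hS.2 x
  have mem : ∀ t ∈ A, t ≤ sSup A → ((t, x), Φ (t, x)) ∈ K := fun t j i =>
    k3 t ⟨j.1.1, i⟩ _ (wb t j) (j.2.2 t ⟨j.1.1, le_rfl⟩).le
  have hW : (sSup A, x) ∈ W := h2 _ hS.1 K k2 k1 (mem _ m0 hS.1) fun t j _ =>
    mem t (lt t (Ioo_subset_Ico_self j)) j.2.le
  have cΦ : ContinuousAt (fun t => Φ (t, x)) (sSup A) := (sol_d (h1 _ hW).1).continuousAt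
  have lim : ∀ {u : ℝ → ℝ}, ContinuousAt u (sSup A) → (∀ t ∈ A, 0 ≤ u t) → 0 ≤ u (sSup A) :=
    fun k i => ContinuousWithinAt.closure_le (csSup_mem_closure ⟨_, m0⟩ bd) continuousWithinAt_const
      k.continuousWithinAt i
  have rS : r2 / 2 ≤ (Φ (sSup A, x)).1 := sub_nonneg.1 (lim (u := fun t => (Φ (t, x)).1 - r2 / 2)
    (cΦ.fst.sub continuousAt_const) fun t j => sub_nonneg.2 (c.geo j.1 (wb t j)).2.2.1)
  have cF : ContinuousAt (fun t => fi l T f (Ph Φ (t, x))) (sSup A) := by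
    have := ContinuousAt.comp (f := fun t => (Φ (t, x)).1) (c.f_ct rS) cΦ.fst
    exact (show ContinuousAt (fun t => l * (T - t)) _ by fun_prop).add this
  have ge := lim cF fun t j => (j.2.2 t ⟨j.1.1, le_rfl⟩).le
  have pos : ∀ t ∈ Ico s2 (sSup A), 0 < fi l T f (Ph Φ (t, x)) := fun t j =>
    (lt t j).2.2 t ⟨j.1, le_rfl⟩
  refine ⟨_, hS, hW, ge.eq_or_lt.resolve_right (fun k => ?_) |>.symm, pos⟩
  rcases hS.2.eq_or_lt with j | j
  · have r := (ap _ hS.2 hW (fun t i => i.2.eq_or_lt.elim (fun e => e ▸ ge)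
      fun e => (pos t ⟨i.1, e⟩).le) _ ⟨hS.1, le_rfl⟩).2.1
    have w := (c.W.pt _ hS).2.2.2.2.2.2.2.1
    have f1 := abs_le.1 (c.f_le rS)
    have l1 := abs_le.1 c.F.hl
    have B0 : 0 ≤ B := by linarith [c.par.2.2.1]
    have := mul_le_mul_of_nonneg_left w B0
    have big := c.big.2
    replace r := (abs_le.1 r).2
    simp only [fi, Ph, rb] at k r
    rw [j] at k r w f1 this
    have : (Φ (3 * T, x)).1 ≤ 8 / 5 * T := by nlinarith
    nlinarith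
  · obtain ⟨u, u1, u2⟩ := (nhdsGT_basis_Ioc (a := sSup A)).eventually_iff.1
      (((cF.eventually_const_lt k).and ((show ContinuousAt (fun t : ℝ => (t, x)) _ by
        fun_prop).eventually (o.eventually_mem hW))).and (eventually_lt_nhds j)
          |>.filter_mono nhdsWithin_le_nhds)
    have := u2 (right_mem_Ioc.2 u1)
    refine (le_csSup bd (show u ∈ A from ⟨⟨hS.1.trans u1.le, this.2.le⟩, this.1.2,
      fun t i => ?_⟩)).not_gt u1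
    rcases lt_trichotomy t (sSup A) with e | e | e
    exacts [pos t ⟨i.1, e⟩, e ▸ k, (u2 ⟨e, i.2⟩).1.1]

end Cx

end Vale.Agent.P354SA
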