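import Vale.Agent.P354SA.FD
import Vale.Agent.P354LF.Hj

/-!
The characteristic field in scaled variables.
-/

open scoped ContDiff Nat
open Set Filter Topology

noncomputable section

namespace Vale.Agent.P354SA

open Vale.Agent.P354n (R4)
open Vale.Agent.P354R (Met)
open Vale.Agent.P354XE (Tw)
open Vale.Agent.P354YQ (SA JB JD Sol)
open ContinuousLinearMap (fst snd)

/-- The scales α for r and ϖ for p. -/
def Nm (α ϖ : ℝ) : E5 →L[ℝ] Q6 :=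
  ((0 : E5 →L[ℝ] ℝ).prod ((α • fst ℝ ℝ _).prod ((fst ℝ Y2 Y2).comp (snd ℝ ℝ _)))).prod
    (ϖ • (snd ℝ Y2 Y2).comp (snd ℝ ℝ _))
def A5 (α ϖ : ℝ) : E5 →L[ℝ] E5 :=
  (α • fst ℝ ℝ _).prod (((fst ℝ Y2 Y2).comp (snd ℝ ℝ _)).prod (ϖ • (snd ℝ Y2 Y2).comp (snd ℝ ℝ _)))
def A6 (α ϖ : ℝ) : E5 × ℝ →L[ℝ] E5 × ℝ := ((A5 α ϖ).comp (fst ℝ _ _)).prod (snd ℝ _ _)

theorem Nm_ap (α ϖ : ℝ) (ξ : E5) : Nm α ϖ ξ = ((0, α * ξ.1, ξ.2.1), ϖ • ξ.2.2) := rfl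
theorem A5_ap (α ϖ : ℝ) (ξ : E5) : A5 α ϖ ξ = (α * ξ.1, ξ.2.1, ϖ • ξ.2.2) := rfl
theorem A6_ap (α ϖ : ℝ) (ξ : E5 × ℝ) : A6 α ϖ ξ = (A5 α ϖ ξ.1, ξ.2) := rfl

theorem A5_le {α ϖ c : ℝ} (h : |α| ≤ c) (h' : |ϖ| ≤ c) (h1 : 1 ≤ c) : ‖A5 α ϖ‖ ≤ c := by
  refine ContinuousLinearMap.opNorm_le_bound _ (by linarith) fun ξ => ?_
  have a : ‖ξ.1‖ ≤ ‖ξ‖ := norm_fst_le ξ
  have b : ‖ξ.2.1‖ ≤ ‖ξ‖ := (norm_fst_le _).trans (norm_snd_le ξ)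
  have d : ‖ξ.2.2‖ ≤ ‖ξ‖ := (norm_snd_le _).trans (norm_snd_le ξ)
  have n := norm_nonneg ξ
  rw [A5_ap]
  refine norm_prod_le_iff.2 ⟨?_, norm_prod_le_iff.2 ⟨by nlinarith, ?_⟩⟩
  · rw [norm_mul]
    exact mul_le_mul h a (norm_nonneg _) (by linarith)
  · rw [norm_smul]
    exact mul_le_mul h' d (norm_nonneg _) (by linarith)

theorem A6_le {α ϖ c : ℝ} (h : |α| ≤ c) (h' : |ϖ| ≤ c) (h1 : 1 ≤ c) : ‖A6 α ϖ‖ ≤ c := by
  refine ContinuousLinearMap.opNorm_le_bound _ (by linarith) fun ξ => ?_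
  have n := norm_nonneg ξ
  rw [A6_ap]
  exact norm_prod_le_iff.2 ⟨((A5 α ϖ).le_opNorm _).trans
    (mul_le_mul (A5_le h h' h1) (norm_fst_le ξ) (norm_nonneg _) (by linarith)),
    (norm_snd_le ξ).trans (by nlinarith)⟩

theorem A5_mul (α ϖ α' ϖ' : ℝ) (ξ : E5) : A5 α ϖ (A5 α' ϖ' ξ) = A5 (α * α') (ϖ * ϖ') ξ := by
  simp only [A5_ap, mul_assoc, mul_smul]

theorem A6_mul (α ϖ α' ϖ' : ℝ) : (A6 α ϖ).comp (A6 α' ϖ') = A6 (α * α') (ϖ * ϖ') :=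
  ContinuousLinearMap.ext fun ξ => by
    simp only [ContinuousLinearMap.comp_apply, A6_ap, A5_mul]

theorem A5_one (ξ : E5) : A5 1 1 ξ = ξ := by simp only [A5_ap, one_mul, one_smul]

theorem ph_A5 (w : R4) (α ϖ : ℝ) (y ξ : E5) :
    ph w (A5 α ϖ (y + ξ)) = ph w (A5 α ϖ y) + Nm α ϖ ξ := by
  simp only [ph, A5_ap, Nm_ap, Prod.mk_add_mk, Prod.fst_add, Prod.snd_add, add_zero, mul_add,
    smul_add]

/-- The field in terms of the scaled Hamiltonian. -/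
def Gf (t lam : ℝ) (y0 : E5) (H : E5 → ℝ) (ξ : E5) : E5 × ℝ :=
  ((t * (H ξ - fderiv ℝ H ξ (0, 0, (y0 + ξ).2.2)),
    (-fderiv ℝ H ξ (0, 0, 1, 0), -fderiv ℝ H ξ (0, 0, 0, 1)),
    (fderiv ℝ H ξ (0, (1, 0), 0), fderiv ℝ H ξ (0, (0, 1), 0)) +
      (t * fderiv ℝ H ξ (1, 0)) • (y0 + ξ).2.2), lam * t * fderiv ℝ H ξ (1, 0))

section
variable {E F : Type} [NormedAddCommGroup E] [NormedSpace ℝ E] [NormedAddCommGroup F]
  [NormedSpace ℝ F] {n : ℕ} {f : E → F} {x : E} {c : ℝ}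

theorem jd_sm (h : JD n f x c) {a : ℝ} (ha : 0 ≤ a) : JD n (fun y => a • f y) x (a * c) := by
  refine ⟨h.sm.clm (a • ContinuousLinearMap.id ℝ F), fun i j k => ?_⟩
  rw [show (fun y => a • f y) = a • f from rfl, iteratedFDeriv_const_smul_apply (h.sm.atn i),
    norm_smul, Real.norm_of_nonneg ha]
  exact mul_le_mul_of_nonneg_left (h.le i j k) ha

theorem jd_t {f : E → ℝ} (h : JD n f x c) {t : ℝ} (ht : t ∈ Icc (0 : ℝ) 1) (hc : 0 ≤ c) :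
    JD n (fun y => t * f y) x c :=
  (jd_sm h ht.1).mono (mul_le_of_le_one_left hc ht.2)

theorem jb_t {f : E → ℝ} (h : JB n f x c) {t : ℝ} (ht : t ∈ Icc (0 : ℝ) 1) :
    JB n (fun y => t * f y) x c :=
  (jd_t h.jd ht h.nonneg).jb (by
    rw [norm_mul, Real.norm_of_nonneg ht.1]
    exact (mul_le_of_le_one_left (norm_nonneg _) ht.2).trans h.zero)

theorem jb_neg (h : JB n f x c) : JB n (fun y => -f y) x c := by
  simpa using (JB.const (k := n) (z := x) (0 : F)).sub h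

end

theorem jd_G {n : ℕ} {t lam c : ℝ} {y0 : E5} {H : E5 → ℝ} (h : JD (n + 1) H 0 c) (hc : 0 ≤ c)
    (hy : ‖y0.2.2‖ ≤ 2) (ht : t ∈ Icc (0 : ℝ) 1) (hl : lam ∈ Icc (0 : ℝ) 1) :
    JD n (Gf t lam y0 H) 0 (4 * 4 ^ n * c) := by
  have d := h.fderiv
  have p1 : (1 : ℝ) ≤ 2 ^ n := one_le_pow₀ one_le_two
  have p2 : (4 : ℝ) ^ n = 2 ^ n * 2 ^ n := by rw [← mul_pow]; norm_num
  have ev : ∀ v : E5, ‖v‖ ≤ 1 → JB n (fun ξ => fderiv ℝ H ξ v) 0 (2 ^ n * c) := fun v hv =>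
    (d.app (JB.const v)).mono (mul_le_of_le_one_right (by positivity) hv)
  have L : ∀ (T : E5 →L[ℝ] E5), ‖T‖ ≤ 1 → JD n (fun ξ : E5 => T (y0 + ξ)) 0 2 := fun T hT =>
    (((JD.const y0).add JD.id).clm T).mono (by nlinarith [norm_nonneg T])
  have y3 : JB n (fun ξ : E5 => ((0 : ℝ), (0 : Y2), (y0 + ξ).2.2)) 0 2 := by
    have := L ((A5 0 1).comp (ContinuousLinearMap.id ℝ _) - A5 0 0) (by
      refine ContinuousLinearMap.opNorm_le_bound _ zero_le_one fun ξ => ?_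
      simp [A5_ap, Prod.norm_def])
    refine (this.congr (.of_forall fun ξ => by simp [A5_ap])).jb ?_
    simpa [Prod.norm_def] using hy
  have y4 : JB n (fun ξ : E5 => (y0 + ξ).2.2) 0 2 := by
    refine (y3.clm ((snd ℝ Y2 Y2).comp (snd ℝ ℝ _))).mono ?_
    have : ‖(snd ℝ Y2 Y2).comp (snd ℝ ℝ (Y2 × Y2))‖ ≤ 1 :=
      ContinuousLinearMap.opNorm_le_bound _ zero_le_one fun ξ => by
        simpa using (norm_snd_le _).trans (norm_snd_le ξ)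
    linarith
  have e1 := ev (1, 0) (by simp [Prod.norm_def])
  have k : 2 ^ n * c ≤ 4 ^ n * c := by rw [p2]; nlinarith [mul_nonneg (zero_le_one.trans p1) hc]
  have k0 : c ≤ 2 ^ n * c := le_mul_of_one_le_left hc p1
  have a1 := jd_t (((h.ord n.le_succ).sub (d.app y3).jd).mono
    (show _ ≤ 4 * 4 ^ n * c by nlinarith)) ht (by positivity)
  have a2 := (((jb_neg (ev (0, 0, 1, 0) (by simp [Prod.norm_def]))).prod
    (jb_neg (ev (0, 0, 0, 1) (by simp [Prod.norm_def])))).mono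
      (show _ ≤ 4 * 4 ^ n * c by nlinarith)).jd
  have a3 := ((((ev (0, (1, 0), 0) (by simp [Prod.norm_def])).prod
    (ev (0, (0, 1), 0) (by simp [Prod.norm_def]))).add ((jb_t e1 ht).smul y4)).mono
      (show _ ≤ 4 * 4 ^ n * c by rw [p2] at *; nlinarith)).jd
  have a4 := ((jb_t e1 (show lam * t ∈ Icc (0 : ℝ) 1 from ⟨mul_nonneg hl.1 ht.1, mul_le_one₀ hl.2 ht.1 ht.2⟩)).mono (show _ ≤ 4 * 4 ^ n * c by nlinarith)).jd
  exact (a1.prod (a2.prod a3)).prod a4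

variable {g : Tw} {D : Set R4} {α ϖ : ℝ} {w : R4} {y0 : E5}

/-- The scaled Hamiltonian. -/
def Hs (g : Tw) (α ϖ : ℝ) (q : Q6) (ξ : E5) : ℝ := Hm g (q + Nm α ϖ ξ)

theorem Hs_fd (o : IsOpen D) (m : Met g D) {q : Q6} {ξ : E5} (h : q + Nm α ϖ ξ ∈ Ug g D) (v : E5) :
    fderiv ℝ (Hs g α ϖ q) ξ v = fderiv ℝ (Hm g) (q + Nm α ϖ ξ) (Nm α ϖ v) := by
  have := (((P354LF.hm_cd o m h).differentiableAt (by simp)).hasFDerivAt.comp ξ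
    ((Nm α ϖ).hasFDerivAt.const_add q)).fderiv
  rw [show Hs g α ϖ q = Hm g ∘ fun ξ => q + Nm α ϖ ξ from rfl, this]
  rfl

theorem Hs_d (o : IsOpen D) (m : Met g D) {q q' : Q6} {ξ : E5} (e : q' = q + Nm α ϖ ξ)
    (h : q' ∈ Ug g D) : fderiv ℝ (Hs g α ϖ q) ξ (1, 0) = α * Hd g e1 q' ∧
      (∀ π, fderiv ℝ (Hs g α ϖ q) ξ (0, 0, π) = -dot (ϖ • π) (Wv g q').2.2) ∧
      fderiv ℝ (Hs g α ϖ q) ξ (0, (1, 0), 0) = Hd g (ey 0) q' ∧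
      fderiv ℝ (Hs g α ϖ q) ξ (0, (0, 1), 0) = Hd g (ey 1) q' ∧
      (Wv g q').2.1 = Hs g α ϖ q ξ + dot q'.2 (Wv g q').2.2 := by
  have d := Hs_fd (q := q) o m (e ▸ h)
  rw [← e] at d
  have a := (P354LF.wv_ap o m h).2
  rw [P354LF.xp_ap] at a
  refine ⟨?_, fun π => ?_, ?_, ?_, by rw [Hs, ← e, ← a]; ring⟩
  · rw [d, Hd, ← smul_eq_mul, ← map_smul]
    congr 1
    simp [Nm_ap, e1]
    rfl
  · rw [d, ← (P354LF.hm_p o m h _).1]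
    congr 1
    simp [Nm_ap]
  all_goals
    rw [d, Hd]
    congr 1
    simp [Nm_ap, ey]

theorem cf_G (o : IsOpen D) (m : Met g D) (hα : 0 < α) (hϖ : 0 < ϖ) (lam : ℝ) {ξ : E5}
    (h : ph w (A5 α ϖ (y0 + ξ)) ∈ Ug g D) :
    (cf g (w, A5 α ϖ (y0 + ξ)), lam * Hd g e1 (ph w (A5 α ϖ (y0 + ξ)))) =
      A6 α ϖ (ϖ⁻¹ • Gf (ϖ / α) lam y0 (Hs g α ϖ (ph w (A5 α ϖ y0))) ξ) := by
  obtain ⟨d1, d2, d3, d4, a⟩ := Hs_d o m (ph_A5 w α ϖ y0 ξ) h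
  have p : (ph w (A5 α ϖ (y0 + ξ))).2 = ϖ • (y0 + ξ).2.2 := rfl
  have p' : (A5 α ϖ (y0 + ξ)).2.2 = ϖ • (y0 + ξ).2.2 := rfl
  rw [p] at a
  simp only [Gf, cf, d1, d2, d3, d4, a, p']
  generalize ph w (A5 α ϖ (y0 + ξ)) = q
  generalize Hs g α ϖ (ph w (A5 α ϖ y0)) ξ = H
  generalize (y0 + ξ).2.2 = u
  simp only [A6_ap, A5_ap, Prod.smul_mk, Prod.mk.injEq, smul_eq_mul]
  refine ⟨⟨?_, Prod.ext ?_ ?_, Prod.ext ?_ ?_⟩, ?_⟩
  all_goals try simp only [dot, Prod.fst_add, Prod.snd_add, Prod.smul_fst, Prod.smul_snd,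
    smul_eq_mul]
  all_goals field_simp
  all_goals ring

/-- The size of the field. -/
theorem cf_le (o : IsOpen D) (m : Met g D) (hϖ : 0 < ϖ) (hα : ϖ ≤ α) {y : E5} {c : ℝ}
    (h : ph w y ∈ Ug g D) (hp : ‖y.2.2‖ ≤ 2 * ϖ) (d : JD 1 (Hs g α ϖ (ph w y)) 0 c) :
    |(cf g (w, y)).1 - Hm g (ph w y)| ≤ 2 * c ∧ ‖(cf g (w, y)).2.1‖ ≤ c / ϖ ∧
      ‖(cf g (w, y)).2.2‖ ≤ 3 * c ∧ |Hd g e1 (ph w y)| ≤ c / α := by
  have α0 := hϖ.trans_le hα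
  obtain ⟨d1, d2, d3, d4, a⟩ := Hs_d (α := α) (ϖ := ϖ) (q := ph w y) (ξ := 0) o m (by simp) h
  have n := d.fderiv.zero
  have h0 : Hs g α ϖ (ph w y) 0 = Hm g (ph w y) := by rw [Hs, map_zero, add_zero]
  generalize fderiv ℝ (Hs g α ϖ (ph w y)) 0 = L at n d1 d2 d3 d4
  have c0 := (norm_nonneg _).trans n
  have ev : ∀ v : E5, ∀ b, ‖v‖ ≤ b → |L v| ≤ c * b := fun v b hv =>
    (L.le_opNorm v).trans (mul_le_mul n hv (norm_nonneg _) c0)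
  have k1 := ev (1, 0) 1 (by simp [Prod.norm_def])
  have k2 := ev (0, 0, ϖ⁻¹ • y.2.2) 2 (by
    have : ‖ϖ⁻¹ • y.2.2‖ ≤ 2 := by
      rw [norm_smul, norm_inv, Real.norm_of_nonneg hϖ.le, inv_mul_le_iff₀ hϖ]
      linarith
    simpa [Prod.norm_def] using this)
  have k3 := ev (0, (1, 0), 0) 1 (by simp [Prod.norm_def])
  have k4 := ev (0, (0, 1), 0) 1 (by simp [Prod.norm_def])
  have k5 := ev (0, 0, 1, 0) 1 (by simp [Prod.norm_def])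
  have k6 := ev (0, 0, 0, 1) 1 (by simp [Prod.norm_def])
  rw [d2, smul_inv_smul₀ hϖ.ne', abs_neg] at k2
  rw [d2, abs_neg] at k5 k6
  rw [d1, abs_mul, abs_of_pos α0] at k1
  rw [d3] at k3
  rw [d4] at k4
  have k7 : |Hd g e1 (ph w y)| ≤ c / α := by rw [le_div_iff₀ α0]; linarith
  have k8 : ∀ x : ℝ, |x| ≤ 2 * ϖ → |x * Hd g e1 (ph w y)| ≤ 2 * c := fun x hx => by
    rw [abs_mul]
    nlinarith [abs_nonneg (Hd g e1 (ph w y)), abs_nonneg x]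
  simp only [dot, Prod.smul_mk, smul_eq_mul, mul_one, mul_zero, zero_mul, add_zero, zero_add,
    abs_mul, abs_of_pos hϖ] at k5 k6
  refine ⟨?_, norm_prod_le_iff.2 ⟨?_, ?_⟩, norm_prod_le_iff.2 ⟨?_, ?_⟩, k7⟩
  · rw [show (cf g (w, y)).1 = _ from a, h0, add_sub_cancel_left]
    exact k2.trans_eq (mul_comm _ _)
  · rw [le_div_iff₀' hϖ]
    exact k5
  · rw [le_div_iff₀' hϖ]
    exact k6
  · exact (abs_add_le _ _).trans (by linarith [k8 _ ((norm_fst_le y.2.2).trans hp)])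
  · exact (abs_add_le _ _).trans (by linarith [k8 _ ((norm_snd_le y.2.2).trans hp)])

/-- The jets of the scaled field. -/
theorem jd_W {X : Type} [NormedAddCommGroup X] [NormedSpace ℝ X]
    (hϖ : 0 < ϖ) (hα : ϖ ≤ α) {n : ℕ} {c lam k : ℝ} (hc : 0 ≤ c) (hl : lam ∈ Icc (0 : ℝ) 1)
    {q : Q6} (hy : ‖y0.2.2‖ ≤ 2) (d : JD (n + 1) (Hs g α ϖ q) 0 c) (x : X) :
    JD n (fun a : X × E5 × ℝ => ϖ⁻¹ • Gf (ϖ / α) lam y0 (Hs g α ϖ q) (a.2.1 - y0)) (x, y0, k)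
      (n ! * (4 * 4 ^ n) * (c / ϖ)) := by
  have α0 := hϖ.trans_le hα
  have G := jd_sm (jd_G (t := ϖ / α) d hc hy ⟨by positivity, (div_le_one α0).2 hα⟩ hl)
    (inv_pos.2 hϖ).le
  have L : JD n (fun a : X × E5 × ℝ => a.2.1 - y0) (x, y0, k) 1 := by
    have := (JD.lin (k := n) (z := (x, y0, k)) ((fst ℝ E5 ℝ).comp (snd ℝ X _))).sub (JD.const y0)
    refine this.mono ?_
    rw [add_zero]
    exact ContinuousLinearMap.opNorm_le_bound _ zero_le_one fun ξ => by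
      simpa using (norm_fst_le _).trans (norm_snd_le ξ)
  have := JD.comp (u := fun ξ => ϖ⁻¹ • Gf (ϖ / α) lam y0 (Hs g α ϖ q) ξ) (by simpa using G) L
    le_rfl (by positivity)
  refine this.mono (le_of_eq ?_)
  rw [one_pow]
  field_simp

/-- The change of the scale of r. -/
theorem Hs_sc {n : ℕ} {q : Q6} {r c : ℝ} (hr : 0 < r) (hα : 0 ≤ α) (h2 : α ≤ 2 * r) (hc : 0 ≤ c)
    (d : JD n (Hs g r ϖ q) 0 c) : JD n (Hs g α ϖ q) 0 (n ! * c * 2 ^ n) := by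
  have L := (JD.lin (k := n) (z := (0 : E5)) (A5 (α / r) 1)).mono (A5_le (c := 2) (by
    rw [abs_of_nonneg (by positivity), div_le_iff₀ hr]
    exact h2) (by simp) one_le_two)
  have := JD.comp (u := Hs g r ϖ q) (by simpa using d) L one_le_two hc
  refine this.congr (.of_forall fun ξ => ?_)
  simp only [Hs, Nm_ap, A5_ap, one_smul]
  rw [← mul_assoc, mul_div_cancel₀ _ hr.ne']

end Vale.Agent.P354SA
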