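import Vale.Agent.P354SA.FlowM
import Vale.Agent.P354LN.Wtf
import Vale.Agent.P354FE.Main
import Vale.Agent.P354XM.Jnt
import Vale.Agent.P354YR.Rp
import Vale.Agent.P354HN.Slc
import Vale.Agent.P354SC.Farc
import Vale.Agent.P354LF.Ham
import Vale.Agent.P354XY.Curv
import Vale.Agent.P354RM.Hfz
import Vale.Agent.P354HF.Hyf
import Vale.Agent.P354YC.Hyn
import Vale.Agent.P354LA.Chf
import Vale.Agent.P354LA.Fat
import Vale.Agent.P354SM.Near
import Vale.Agent.P354CH.Rz
import Vale.Agent.P354YI.Pbg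
import Vale.Agent.P354KX.Exp
import Vale.Agent.P354KG.Rays
import Vale.Agent.P354YU.S2
import Vale.Agent.P354SG.Main
import Vale.Agent.P354UR.Bot
import Vale.Agent.P354NE.Kch
import Vale.Agent.P354NP.Btj

/-!
The collection of the block S1.
-/

namespace Vale.Agent.P354SA

open Vale.Agent

theorem far_of (hB : BTJ) : FAR :=
  P354FE.fend (flow P354LN.wtf) P354XM.jnt P354YR.rpf P354HN.root hB P354HN.slc

theorem farc_ok : FARC :=
  P354SC.farc_of P354LA.chf P354HF.hyf P354YC.hyn P354RM.hfz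
    (P354SC.abs_of P354LF.ham (P354XY.curv P354LF.ham))

theorem rays_of (hK : P354SM.KCH) (hB : BTJ) : RAYS :=
  P354KG.rays (P354SM.near0 hK P354CH.rzb P354CH.rzd P354YI.pbg P354KX.exp_ok) farc_ok
    (far_of hB) P354LA.chf P354LA.fat

theorem s1_of (hK : P354SM.KCH) (hB : BTJ) : P354KX.S1 :=
  P354YU.s1 (rays_of hK hB) P354SG.eik P354UR.bot_ok

/-- **S1.** -/
theorem s1_ok : P354KX.S1 := s1_of P354NE.kch P354NP.btj

end Vale.Agent.P354SA
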